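import Mathlib

/-!
P337, algebra side: monic complete intersections `x_i ^ d = H_i(x)`, `deg H_i < d`.
-/

namespace Vale.Agent.P337

open MvPolynomial

variable {N : ℕ} {R : Type} [CommRing R]

/-- the equations `X_i ^ d - H_i` -/
noncomputable def Fs (d : ℕ) (H : Fin N → MvPolynomial (Fin N) R) (i : Fin N) :
    MvPolynomial (Fin N) R := X i ^ d - H i

/-- the quotient algebra -/
abbrev QA (d : ℕ) (H : Fin N → MvPolynomial (Fin N) R) : Type :=
  MvPolynomial (Fin N) R ⧸ Ideal.span (Set.range (Fs d H))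

/-- the class of a polynomial -/
noncomputable abbrev qmk (d : ℕ) (H : Fin N → MvPolynomial (Fin N) R) :
    MvPolynomial (Fin N) R →ₐ[R] QA d H := Ideal.Quotient.mkₐ R _

/-- truncated residue functional -/
noncomputable def rho (d : ℕ) (H : Fin N → MvPolynomial (Fin N) R) (K : ℕ)
    (h : MvPolynomial (Fin N) R) : R :=
  ∑ k ∈ Fintype.piFinset (fun _ : Fin N => Finset.range (K + 1)),
    coeff (Finsupp.equivFunOnFinite.symm fun i => d * (k i + 1) - 1) (h * ∏ i, H i ^ k i)

/-- the monomials with all exponents below `d` -/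
noncomputable def mon (d : ℕ) (a : Fin N → Fin d) : MvPolynomial (Fin N) R :=
  ∏ i, X i ^ (a i : ℕ)

end Vale.Agent.P337
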