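import Mathlib
import Vale.Agent.Lib.P337.Alg.Basic

/-!
P337, algebra side: the residue functional.
-/

namespace Vale.Agent.P337

open MvPolynomial

variable {N : ℕ} {R : Type} [CommRing R]

/-- one term of the residue functional -/
noncomputable def rterm (d : ℕ) (H : Fin N → MvPolynomial (Fin N) R)
    (h : MvPolynomial (Fin N) R) (k : Fin N → ℕ) : R :=
  coeff (Finsupp.equivFunOnFinite.symm fun i => d * (k i + 1) - 1) (h * ∏ i, H i ^ k i)

theorem rho_eq_rterm (d : ℕ) (H : Fin N → MvPolynomial (Fin N) R) (K : ℕ)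
    (h : MvPolynomial (Fin N) R) :
    rho d H K h = ∑ k ∈ Fintype.piFinset (fun _ : Fin N => Finset.range (K + 1)), rterm d H h k :=
  rfl

theorem sum_exps {d : ℕ} (hd : 1 ≤ d) (k : Fin N → ℕ) :
    ∑ i, (d * (k i + 1) - 1) = d * ∑ i, k i + N * (d - 1) := by
  have h1 : ∀ i, d * (k i + 1) - 1 = d * k i + (d - 1) := by
    intro i
    rw [mul_add, mul_one]
    omega
  simp only [h1, Finset.sum_add_distrib, Finset.sum_const, Finset.card_univ, Fintype.card_fin,
    smul_eq_mul, Finset.mul_sum]

theorem rterm_zero {d : ℕ} (hd : 1 ≤ d) {H : Fin N → MvPolynomial (Fin N) R}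
    (hH : ∀ i, (H i).totalDegree < d) {h : MvPolynomial (Fin N) R} {k : Fin N → ℕ}
    (hk : h.totalDegree < ∑ i, k i + N * (d - 1)) : rterm d H h k = 0 := by
  unfold rterm
  apply coeff_eq_zero_of_totalDegree_lt
  have h1 : ∑ i ∈ (Finsupp.equivFunOnFinite.symm fun i => d * (k i + 1) - 1 : Fin N →₀ ℕ).support,
      (Finsupp.equivFunOnFinite.symm fun i => d * (k i + 1) - 1 : Fin N →₀ ℕ) i =
      ∑ i, (d * (k i + 1) - 1) := by
    rw [Finset.sum_subset (Finset.subset_univ _)]
    · rfl
    · intro i _ hi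
      exact Finsupp.notMem_support_iff.1 hi
  rw [h1, sum_exps hd]
  have h2 : (∏ i, H i ^ k i).totalDegree ≤ (d - 1) * ∑ i, k i := by
    refine (totalDegree_finsetProd _ _).trans ?_
    rw [Finset.mul_sum]
    refine Finset.sum_le_sum fun i _ => (totalDegree_pow _ _).trans ?_
    rw [mul_comm]
    exact Nat.mul_le_mul_right _ (Nat.le_sub_one_of_lt (hH i))
  have h3 := totalDegree_mul h (∏ i, H i ^ k i)
  have h4 : d * ∑ i, k i = (d - 1) * ∑ i, k i + ∑ i, k i := by
    obtain ⟨e, rfl⟩ : ∃ e, d = e + 1 := ⟨d - 1, by omega⟩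
    simp only [Nat.add_sub_cancel]
    ring
  rw [h4]
  omega

/-- the truncation of the residue functional does not matter beyond the total degree -/
theorem rho_stable {d : ℕ} (hd : 1 ≤ d) {H : Fin N → MvPolynomial (Fin N) R}
    (hH : ∀ i, (H i).totalDegree < d) {K K' : ℕ} (hK : K ≤ K') {h : MvPolynomial (Fin N) R}
    (hh : h.totalDegree ≤ K) : rho d H K' h = rho d H K h := by
  rw [rho_eq_rterm, rho_eq_rterm]
  symm
  refine Finset.sum_subset (Fintype.piFinset_subset _ _ fun _ => Finset.range_subset_range.2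
    (Nat.succ_le_succ hK)) ?_
  intro k _ hk
  apply rterm_zero hd hH
  rw [Fintype.mem_piFinset] at hk
  push Not at hk
  obtain ⟨i, hi⟩ := hk
  rw [Finset.mem_range] at hi
  have h1 : k i ≤ ∑ i, k i := Finset.single_le_sum (fun _ _ => Nat.zero_le _) (Finset.mem_univ i)
  omega

theorem rho_add (d : ℕ) (H : Fin N → MvPolynomial (Fin N) R) (K : ℕ)
    (h h' : MvPolynomial (Fin N) R) : rho d H K (h + h') = rho d H K h + rho d H K h' := by
  simp only [rho, add_mul, coeff_add, Finset.sum_add_distrib]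

theorem rho_C_mul (d : ℕ) (H : Fin N → MvPolynomial (Fin N) R) (K : ℕ) (c : R)
    (h : MvPolynomial (Fin N) R) : rho d H K (C c * h) = c * rho d H K h := by
  simp only [rho, mul_assoc, coeff_C_mul, Finset.mul_sum]

/-- the residue functional as a linear map -/
noncomputable def rhoL (d : ℕ) (H : Fin N → MvPolynomial (Fin N) R) :
    MvPolynomial (Fin N) R →ₗ[R] R :=
  (basisMonomials (Fin N) R).constr R fun m => rho d H m.degree (monomial m 1)

theorem rhoL_monomial_one (d : ℕ) (H : Fin N → MvPolynomial (Fin N) R) (m : Fin N →₀ ℕ) :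
    rhoL d H (monomial m 1) = rho d H m.degree (monomial m 1) := by
  have h := (basisMonomials (Fin N) R).constr_basis R
    (fun m => rho d H m.degree (monomial m (1 : R))) m
  rw [coe_basisMonomials] at h
  exact h

theorem rho_sum (d : ℕ) (H : Fin N → MvPolynomial (Fin N) R) (K : ℕ) {ι : Type}
    (s : Finset ι) (f : ι → MvPolynomial (Fin N) R) :
    rho d H K (∑ i ∈ s, f i) = ∑ i ∈ s, rho d H K (f i) := by
  classical
  induction s using Finset.induction_on with
  | empty => simp [rho]
  | insert a s ha ih => rw [Finset.sum_insert ha, Finset.sum_insert ha, rho_add, ih]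

theorem rhoL_apply {d : ℕ} (hd : 1 ≤ d) {H : Fin N → MvPolynomial (Fin N) R}
    (hH : ∀ i, (H i).totalDegree < d) {K : ℕ} {h : MvPolynomial (Fin N) R}
    (hh : h.totalDegree ≤ K) : rhoL d H h = rho d H K h := by
  conv_lhs => rw [h.as_sum]
  conv_rhs => rw [h.as_sum]
  rw [map_sum, rho_sum]
  refine Finset.sum_congr rfl fun m hm => ?_
  have h1 : (monomial m (coeff m h)) = C (coeff m h) * (monomial m 1 : MvPolynomial (Fin N) R) := by
    rw [C_mul_monomial, mul_one]
  have h2 : m.degree ≤ K := le_trans (le_totalDegree hm) hh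
  rw [h1, rho_C_mul, ← smul_eq_C_mul, map_smul, smul_eq_mul, rhoL_monomial_one,
    rho_stable hd hH h2]
  refine (totalDegree_monomial_le _ _).trans ?_
  exact le_rfl

theorem rho_map {R' : Type} [CommRing R'] (φ : R →+* R') (d : ℕ)
    (H : Fin N → MvPolynomial (Fin N) R) (K : ℕ) (h : MvPolynomial (Fin N) R) :
    rho d (fun i => map φ (H i)) K (map φ h) = φ (rho d H K h) := by
  rw [rho, rho, map_sum]
  refine Finset.sum_congr rfl fun k _ => ?_
  rw [← coeff_map]
  simp only [map_mul, map_prod, map_pow]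

/-- base change -/
theorem rhoL_map {R' : Type} [CommRing R'] (φ : R →+* R') {d : ℕ} (hd : 1 ≤ d)
    {H : Fin N → MvPolynomial (Fin N) R} (hH : ∀ i, (H i).totalDegree < d)
    (h : MvPolynomial (Fin N) R) :
    rhoL d (fun i => map φ (H i)) (map φ h) = φ (rhoL d H h) := by
  have hle : ∀ g : MvPolynomial (Fin N) R, (map φ g).totalDegree ≤ g.totalDegree := by
    intro g
    rw [totalDegree, totalDegree]
    exact Finset.sup_mono (support_map_subset φ g)
  rw [rhoL_apply hd (fun i => lt_of_le_of_lt (hle (H i)) (hH i)) (hle h),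
    rhoL_apply hd hH (le_refl h.totalDegree), rho_map]

end Vale.Agent.P337
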