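import Mathlib
import Vale.Agent.Lib.P337.Alg.Rho

/-!
P337, algebra side: the residue functional kills the ideal.
-/

namespace Vale.Agent.P337

open MvPolynomial

variable {N : ℕ} {R : Type} [CommRing R]

theorem rterm_shift {d : ℕ} (hd : 1 ≤ d) (H : Fin N → MvPolynomial (Fin N) R)
    (h : MvPolynomial (Fin N) R) (i : Fin N) (k : Fin N → ℕ) :
    rterm d H (h * X i ^ d) (k + Pi.single i 1) = rterm d H (h * H i) k := by
  unfold rterm
  have h1 : (Finsupp.equivFunOnFinite.symm fun j => d * ((k + Pi.single i 1 : Fin N → ℕ) j + 1) - 1 :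
      Fin N →₀ ℕ) = (Finsupp.equivFunOnFinite.symm fun j => d * (k j + 1) - 1) +
        Finsupp.single i d := by
    ext j
    by_cases hj : i = j
    · subst hj
      simp only [Pi.add_apply, Pi.single_eq_same, Finsupp.equivFunOnFinite_symm_apply_apply,
        Finsupp.add_apply, Finsupp.single_eq_same]
      have : 1 ≤ d * (k i + 1) := Nat.mul_pos hd (Nat.succ_pos _)
      rw [mul_add d (k i + 1) 1]
      omega
    · simp only [Pi.add_apply, Finsupp.equivFunOnFinite_symm_apply_apply, Finsupp.add_apply]
      rw [Pi.single_eq_of_ne (Ne.symm hj), Finsupp.single_eq_of_ne (Ne.symm hj)]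
      rfl
  have h2 : h * X i ^ d * ∏ j, H j ^ (k + Pi.single i 1 : Fin N → ℕ) j =
      (h * H i * ∏ j, H j ^ k j) * monomial (Finsupp.single i d) 1 := by
    have h3 : ∏ j, H j ^ (k + Pi.single i 1 : Fin N → ℕ) j = H i * ∏ j, H j ^ k j := by
      simp only [Pi.add_apply, pow_add, Finset.prod_mul_distrib]
      have h4 : ∏ j, H j ^ (Pi.single i 1 : Fin N → ℕ) j = H i := by
        rw [Finset.prod_eq_single i]
        · simp
        · intro j _ hj
          rw [Pi.single_eq_of_ne hj, pow_zero]
        · intro hi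
          exact absurd (Finset.mem_univ i) hi
      rw [h4, mul_comm]
    rw [h3, X_pow_eq_monomial]
    ring
  rw [h1, h2, coeff_mul_monomial, mul_one]

theorem rterm_first {d : ℕ} (hd : 1 ≤ d) (H : Fin N → MvPolynomial (Fin N) R)
    (h : MvPolynomial (Fin N) R) (i : Fin N) (k : Fin N → ℕ) (hk : k i = 0) :
    rterm d H (h * X i ^ d) k = 0 := by
  unfold rterm
  have h2 : h * X i ^ d * ∏ j, H j ^ k j =
      (h * ∏ j, H j ^ k j) * monomial (Finsupp.single i d) 1 := by
    rw [X_pow_eq_monomial]
    ring
  rw [h2, coeff_mul_monomial', if_neg]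
  intro hle
  have h3 := hle i
  simp only [Finsupp.single_eq_same, Finsupp.equivFunOnFinite_symm_apply_apply, hk] at h3
  omega

/-- the residue functional kills the ideal -/
theorem rhoL_mul_Fs {d : ℕ} (hd : 1 ≤ d) {H : Fin N → MvPolynomial (Fin N) R}
    (hH : ∀ i, (H i).totalDegree < d) (h : MvPolynomial (Fin N) R) (i : Fin N) :
    rhoL d H (h * Fs d H i) = 0 := by
  rw [Fs, mul_sub, map_sub, sub_eq_zero]
  set K := h.totalDegree + d with hK
  have h1 : (h * X i ^ d).totalDegree ≤ K + 1 := by
    refine (totalDegree_mul _ _).trans ?_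
    have : (X i ^ d : MvPolynomial (Fin N) R).totalDegree ≤ d := by
      rw [X_pow_eq_monomial]
      refine (totalDegree_monomial_le _ _).trans ?_
      simp
    omega
  have h2 : (h * H i).totalDegree ≤ K := by
    refine (totalDegree_mul _ _).trans ?_
    have := hH i
    omega
  rw [rhoL_apply hd hH h1, rhoL_apply hd hH (h2.trans (Nat.le_succ K)), rho_eq_rterm, rho_eq_rterm]
  symm
  refine Finset.sum_bij_ne_zero (fun k _ _ => k + Pi.single i 1) ?_ ?_ ?_ ?_
  · intro k hk hne
    rw [Fintype.mem_piFinset] at hk ⊢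
    have h3 : ¬ (h * H i).totalDegree < ∑ i, k i + N * (d - 1) := fun h4 =>
      hne (rterm_zero hd hH h4)
    intro j
    have h5 : k j ≤ ∑ i, k i := Finset.single_le_sum (fun _ _ => Nat.zero_le _) (Finset.mem_univ j)
    rw [Finset.mem_range, Pi.add_apply]
    have h6 : (Pi.single i 1 : Fin N → ℕ) j ≤ 1 := by
      by_cases hj : j = i
      · subst hj
        simp
      · rw [Pi.single_eq_of_ne hj]
        exact Nat.zero_le _
    omega
  · intro k _ _ k' _ _ hkk
    exact add_right_cancel hkk
  · intro k hk hne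
    have h3 : k i ≠ 0 := fun h4 => hne (rterm_first hd H h i k h4)
    refine ⟨k - Pi.single i 1, ?_, ?_, ?_⟩
    · rw [Fintype.mem_piFinset] at hk ⊢
      intro j
      have := Finset.mem_range.1 (hk j)
      rw [Finset.mem_range, Pi.sub_apply]
      omega
    · have h4 : k - Pi.single i 1 + Pi.single i 1 = k := by
        funext j
        by_cases hj : j = i
        · subst hj
          simp only [Pi.add_apply, Pi.sub_apply, Pi.single_eq_same]
          omega
        · simp [Pi.single_eq_of_ne hj]
      rw [← rterm_shift hd H h i, h4]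
      exact hne
    · funext j
      by_cases hj : j = i
      · subst hj
        simp only [Pi.add_apply, Pi.sub_apply, Pi.single_eq_same]
        omega
      · simp [Pi.single_eq_of_ne hj]
  · intro k _ _
    exact (rterm_shift hd H h i k).symm

theorem rhoL_ideal {d : ℕ} (hd : 1 ≤ d) {H : Fin N → MvPolynomial (Fin N) R}
    (hH : ∀ i, (H i).totalDegree < d) {h : MvPolynomial (Fin N) R}
    (hh : h ∈ Ideal.span (Set.range (Fs d H))) : rhoL d H h = 0 := by
  have key : ∀ x ∈ Ideal.span (Set.range (Fs d H)), ∀ c, rhoL d H (c * x) = 0 := by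
    intro x hx
    induction hx using Submodule.span_induction with
    | mem x hx =>
      obtain ⟨i, rfl⟩ := hx
      intro c
      exact rhoL_mul_Fs hd hH c i
    | zero =>
      intro c
      rw [mul_zero, map_zero]
    | add x y _ _ hx hy =>
      intro c
      rw [mul_add, map_add, hx, hy, add_zero]
    | smul a x _ hx =>
      intro c
      rw [smul_eq_mul, ← mul_assoc]
      exact hx _
  have h1 := key h hh 1
  rwa [one_mul] at h1

theorem rhoL_low {d : ℕ} (hd : 1 ≤ d) {H : Fin N → MvPolynomial (Fin N) R}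
    (hH : ∀ i, (H i).totalDegree < d) {h : MvPolynomial (Fin N) R}
    (hh : h.totalDegree < N * (d - 1)) : rhoL d H h = 0 := by
  rw [rhoL_apply hd hH le_rfl, rho_eq_rterm]
  refine Finset.sum_eq_zero fun k _ => rterm_zero hd hH ?_
  omega

/-- on monomials of degree `N (d-1)` only the socle monomial has a nonzero value -/
theorem rhoL_monomial {d : ℕ} (hd : 1 ≤ d) {H : Fin N → MvPolynomial (Fin N) R}
    (hH : ∀ i, (H i).totalDegree < d) (m : Fin N →₀ ℕ) (hm : m.degree = N * (d - 1)) :
    rhoL d H (monomial m 1) = if (∀ i, m i = d - 1) then 1 else 0 := by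
  have h1 : (monomial m (1 : R)).totalDegree ≤ N * (d - 1) := by
    refine (totalDegree_monomial_le _ _).trans ?_
    rw [← hm]
    exact le_rfl
  rw [rhoL_apply hd hH h1, rho_eq_rterm, Finset.sum_eq_single (0 : Fin N → ℕ)]
  · unfold rterm
    simp only [Pi.zero_apply, pow_zero, Finset.prod_const_one, mul_one, zero_add, coeff_monomial]
    congr 1
    rw [eq_iff_iff]
    constructor
    · intro h2 i
      rw [h2]
      rfl
    · intro h2
      ext i
      exact h2 i
  · intro k _ hk
    refine rterm_zero hd hH (lt_of_le_of_lt h1 ?_)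
    have : 0 < ∑ i, k i := by
      rw [Nat.pos_iff_ne_zero]
      intro h2
      apply hk
      funext i
      exact (Finset.sum_eq_zero_iff.1 h2) i (Finset.mem_univ i)
    omega
  · intro h2
    exfalso
    apply h2
    rw [Fintype.mem_piFinset]
    intro i
    simp

end Vale.Agent.P337
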