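import Mathlib
import Vale.Agent.Lib.P337.Alg.RhoB

/-!
P337, algebra side: the monomials are linearly independent.
-/

namespace Vale.Agent.P337

open MvPolynomial

variable {N : ℕ} {R : Type} [CommRing R]

theorem prod_X_eq_monomial (m : Fin N → ℕ) :
    ∏ i, (X i : MvPolynomial (Fin N) R) ^ m i = monomial (Finsupp.equivFunOnFinite.symm m) 1 := by
  rw [monomial_eq, map_one, one_mul, Finsupp.prod_fintype _ _ (fun _ => pow_zero _)]
  rfl

theorem mon_linearIndependent {d : ℕ} (hd : 1 ≤ d) {H : Fin N → MvPolynomial (Fin N) R}
    (hH : ∀ i, (H i).totalDegree < d) :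
    LinearIndependent R fun a : Fin N → Fin d => qmk d H (mon d a) := by
  classical
  rw [Fintype.linearIndependent_iff]
  intro g hg
  by_contra hne
  push Not at hne
  set S := Finset.univ.filter fun a : Fin N → Fin d => g a ≠ 0 with hS
  have hSne : S.Nonempty := by
    obtain ⟨a, ha⟩ := hne
    exact ⟨a, by simp [hS, ha]⟩
  obtain ⟨a, haS, hmax⟩ := S.exists_max_image (fun a => ∑ i, (a i : ℕ)) hSne
  have ha : g a ≠ 0 := by simpa [hS] using haS
  apply ha
  -- the complementary monomial
  set s : Fin N → ℕ := fun i => d - 1 - (a i : ℕ) with hs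
  have hsum : ∑ i, (a i : ℕ) + ∑ i, s i = N * (d - 1) := by
    rw [← Finset.sum_add_distrib]
    have h1 : ∀ i ∈ (Finset.univ : Finset (Fin N)), (a i : ℕ) + s i = d - 1 := by
      intro i _
      have := (a i).isLt
      simp only [hs]
      omega
    rw [Finset.sum_congr rfl h1, Finset.sum_const, Finset.card_univ, Fintype.card_fin, smul_eq_mul]
  have hmem : (∑ b, C (g b) * mon d b : MvPolynomial (Fin N) R) ∈
      Ideal.span (Set.range (Fs d H)) := by
    rw [← Ideal.Quotient.eq_zero_iff_mem]
    rw [← hg, map_sum]
    refine Finset.sum_congr rfl fun b _ => ?_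
    rw [← smul_eq_C_mul]
    exact map_smul (qmk d H) (g b) (mon d b)
  have h0 := rhoL_ideal hd hH (Ideal.mul_mem_right
    (∏ i, (X i : MvPolynomial (Fin N) R) ^ s i) _ hmem)
  rw [Finset.sum_mul, map_sum] at h0
  have hterm : ∀ b, rhoL d H (C (g b) * mon d b * ∏ i, (X i : MvPolynomial (Fin N) R) ^ s i) =
      if b = a then g a else 0 := by
    intro b
    have h1 : C (g b) * mon d b * ∏ i, (X i : MvPolynomial (Fin N) R) ^ s i =
        g b • monomial (Finsupp.equivFunOnFinite.symm fun i => (b i : ℕ) + s i) 1 := by
      rw [smul_eq_C_mul, mul_assoc, mon, ← Finset.prod_mul_distrib, ← prod_X_eq_monomial]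
      simp only [pow_add]
    rw [h1, map_smul, smul_eq_mul]
    by_cases hgb : g b = 0
    · rw [hgb, zero_mul]
      by_cases hba : b = a
      · rw [hba] at hgb
        exact absurd hgb ha
      · rw [if_neg hba]
    · have hbS : b ∈ S := by simp [hS, hgb]
      have hle := hmax b hbS
      have hdeg : (Finsupp.equivFunOnFinite.symm fun i => (b i : ℕ) + s i : Fin N →₀ ℕ).degree =
          ∑ i, (b i : ℕ) + ∑ i, s i := by
        rw [Finsupp.degree_eq_sum, ← Finset.sum_add_distrib]
        rfl
      rcases lt_or_eq_of_le hle with hlt | heq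
      · rw [rhoL_low hd hH, mul_zero, if_neg]
        · rintro rfl
          exact lt_irrefl _ hlt
        · refine lt_of_le_of_lt (totalDegree_monomial_le _ _) ?_
          have h2 : (Finsupp.equivFunOnFinite.symm fun i => (b i : ℕ) + s i : Fin N →₀ ℕ).sum
              (fun _ => id) = ∑ i, (b i : ℕ) + ∑ i, s i := by
            rw [← hdeg]
            rfl
          rw [h2]
          omega
      · rw [rhoL_monomial hd hH _ (by rw [hdeg]; omega)]
        by_cases hba : b = a
        · subst hba
          rw [if_pos, if_pos rfl, mul_one]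
          intro i
          have := (b i).isLt
          simp only [hs, Finsupp.equivFunOnFinite_symm_apply_apply]
          omega
        · rw [if_neg hba, if_neg, mul_zero]
          intro h3
          apply hba
          funext i
          have h4 := h3 i
          have h5 := (b i).isLt
          have h6 := (a i).isLt
          simp only [hs, Finsupp.equivFunOnFinite_symm_apply_apply] at h4
          exact Fin.ext (by omega)
  simp only [hterm] at h0
  simpa using h0

end Vale.Agent.P337
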