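import Mathlib
import Vale.Agent.Lib.P337.Alg.Basic

/-!
P337, algebra side: the monomials span the quotient algebra.
-/

namespace Vale.Agent.P337

open MvPolynomial

variable {N : ℕ} {R : Type} [CommRing R]

/-- abstract version: a quotient of the polynomial ring in which `X_i ^ d = H_i` -/
theorem span_aux {A : Type} [CommRing A] [Algebra R A] (π : MvPolynomial (Fin N) R →ₐ[R] A)
    {d : ℕ} {H : Fin N → MvPolynomial (Fin N) R} (hH : ∀ i, (H i).totalDegree < d)
    (hπ : ∀ i, π (X i ^ d) = π (H i)) (n : ℕ) : ∀ m : Fin N →₀ ℕ, m.degree = n →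
    π (monomial m 1) ∈ Submodule.span R (Set.range fun a : Fin N → Fin d => π (mon d a)) := by
  induction n using Nat.strong_induction_on with
  | _ n ih =>
    intro m hm
    by_cases hlt : ∀ i, m i < d
    · apply Submodule.subset_span
      refine ⟨fun i => ⟨m i, hlt i⟩, ?_⟩
      have h1 : mon d (fun i => (⟨m i, hlt i⟩ : Fin d)) = (monomial m 1 : MvPolynomial (Fin N) R) := by
        rw [mon, monomial_eq, map_one, one_mul, Finsupp.prod_fintype _ _ (fun _ => pow_zero _)]
      show π (mon d _) = _
      rw [h1]
    · push Not at hlt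
      obtain ⟨i, hi⟩ := hlt
      have hle : Finsupp.single i d ≤ m := by
        rw [Finsupp.single_le_iff]
        exact hi
      obtain ⟨m', rfl⟩ : ∃ m', m = m' + Finsupp.single i d := ⟨m - Finsupp.single i d, by
        rw [tsub_add_cancel_of_le hle]⟩
      have hm' : m'.degree + d = n := by
        rw [map_add, Finsupp.degree_single] at hm
        exact hm
      have h1 : (monomial (m' + Finsupp.single i d) (1 : R)) = monomial m' 1 * X i ^ d := by
        rw [X_pow_eq_monomial, monomial_mul, mul_one]
      have h2 : π (monomial (m' + Finsupp.single i d) 1) =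
          ∑ j ∈ (H i).support, coeff j (H i) • π (monomial (m' + j) 1) := by
        rw [h1, map_mul, hπ, ← map_mul]
        conv_lhs => rw [(H i).as_sum]
        rw [Finset.mul_sum, map_sum]
        refine Finset.sum_congr rfl fun j _ => ?_
        rw [monomial_mul, one_mul, ← map_smul, smul_monomial, smul_eq_mul, mul_one]
      rw [h2]
      refine Submodule.sum_mem _ fun j hj => Submodule.smul_mem _ _ ?_
      have h3 : j.degree ≤ (H i).totalDegree := le_totalDegree hj
      have h4 := hH i
      exact ih (m' + j).degree (by rw [map_add]; omega) (m' + j) rfl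

theorem mon_span {d : ℕ} (hd : 1 ≤ d) {H : Fin N → MvPolynomial (Fin N) R}
    (hH : ∀ i, (H i).totalDegree < d) :
    ⊤ ≤ Submodule.span R (Set.range fun a : Fin N → Fin d => qmk d H (mon d a)) := by
  intro v _
  obtain ⟨g, rfl⟩ := Ideal.Quotient.mkₐ_surjective R _ v
  have hπ : ∀ i, qmk d H (X i ^ d) = qmk d H (H i) := by
    intro i
    have : Fs d H i ∈ Ideal.span (Set.range (Fs d H)) := Ideal.subset_span ⟨i, rfl⟩
    have h1 : qmk d H (Fs d H i) = 0 := Ideal.Quotient.eq_zero_iff_mem.2 this
    rw [Fs, map_sub, sub_eq_zero] at h1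
    exact h1
  rw [g.as_sum, map_sum]
  refine Submodule.sum_mem _ fun m _ => ?_
  have h2 : (monomial m (coeff m g)) = coeff m g • (monomial m 1 : MvPolynomial (Fin N) R) := by
    rw [smul_monomial, smul_eq_mul, mul_one]
  rw [h2, map_smul]
  exact Submodule.smul_mem _ _ (span_aux (qmk d H) hH hπ _ m rfl)

end Vale.Agent.P337
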