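import Mathlib
import Vale.Agent.Lib.P337.Alg.Span
import Vale.Agent.Lib.P337.Alg.Indep

/-!
P337, algebra side: the monomial basis of the quotient algebra.
-/

namespace Vale.Agent.P337

open MvPolynomial

variable {N : ℕ} {R : Type} [CommRing R]

/-- the monomial basis -/
noncomputable def bas {d : ℕ} (hd : 1 ≤ d) {H : Fin N → MvPolynomial (Fin N) R}
    (hH : ∀ i, (H i).totalDegree < d) : Module.Basis (Fin N → Fin d) R (QA d H) :=
  Module.Basis.mk (mon_linearIndependent hd hH) (mon_span hd hH)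

theorem bas_apply {d : ℕ} (hd : 1 ≤ d) {H : Fin N → MvPolynomial (Fin N) R}
    (hH : ∀ i, (H i).totalDegree < d) (a : Fin N → Fin d) :
    bas hd hH a = qmk d H (mon d a) := by
  rw [bas, Module.Basis.mk_apply]

/-- matrix of the multiplication by `g` in the monomial basis -/
noncomputable def mmat {d : ℕ} (hd : 1 ≤ d) {H : Fin N → MvPolynomial (Fin N) R}
    (hH : ∀ i, (H i).totalDegree < d) (g : MvPolynomial (Fin N) R) :
    Matrix (Fin N → Fin d) (Fin N → Fin d) R :=
  Algebra.leftMulMatrix (bas hd hH) (qmk d H g)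

theorem mmat_add {d : ℕ} (hd : 1 ≤ d) {H : Fin N → MvPolynomial (Fin N) R}
    (hH : ∀ i, (H i).totalDegree < d) (g h : MvPolynomial (Fin N) R) :
    mmat hd hH (g + h) = mmat hd hH g + mmat hd hH h := by
  simp [mmat]

theorem mmat_mul {d : ℕ} (hd : 1 ≤ d) {H : Fin N → MvPolynomial (Fin N) R}
    (hH : ∀ i, (H i).totalDegree < d) (g h : MvPolynomial (Fin N) R) :
    mmat hd hH (g * h) = mmat hd hH g * mmat hd hH h := by
  simp [mmat]

end Vale.Agent.P337
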