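import Mathlib
import Vale.Agent.Lib.P337.Alg.Basic

/-!
P337, algebra side: Bezoutian decompositions.
-/

namespace Vale.Agent.P337

open MvPolynomial

variable {N : ℕ} {R A : Type} [CommRing R] [CommRing A]

/-- the monomial with exponent vector `m` evaluated at `y` -/
theorem exists_bez_monomial (y : Fin N → A) (n : ℕ) : ∀ m : Fin N →₀ ℕ, m.degree = n →
    ∃ Δ : Fin N → MvPolynomial (Fin N) A,
      monomial m 1 - C (eval y (monomial m 1)) = ∑ j, Δ j * (X j - C (y j)) ∧
      ∀ j, Δ j = 0 ∨ (Δ j).totalDegree + 1 ≤ n := by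
  induction n with
  | zero =>
    intro m hm
    have h0 : m = 0 := (Finsupp.degree_eq_zero_iff m).1 hm
    subst h0
    refine ⟨fun _ => 0, ?_, fun j => Or.inl rfl⟩
    simp
  | succ n ih =>
    intro m hm
    have hne : m ≠ 0 := by
      rintro rfl
      simp at hm
    obtain ⟨i, hi⟩ := Finsupp.ne_iff.1 hne
    rw [Finsupp.zero_apply] at hi
    have hle : Finsupp.single i 1 ≤ m := by
      rw [Finsupp.single_le_iff]
      omega
    obtain ⟨m', rfl⟩ : ∃ m', m = m' + Finsupp.single i 1 := ⟨m - Finsupp.single i 1, by
      rw [tsub_add_cancel_of_le hle]⟩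
    have hm' : m'.degree = n := by
      rw [map_add, Finsupp.degree_single] at hm
      omega
    obtain ⟨Δ, h1, h2⟩ := ih m' hm'
    refine ⟨fun j => X i * Δ j + if j = i then C (eval y (monomial m' 1)) else 0, ?_, ?_⟩
    · have h3 : (monomial (m' + Finsupp.single i 1) (1 : A)) = monomial m' 1 * X i := by
        rw [X, monomial_mul, mul_one]
      have h4 : ∑ j, (X i * Δ j + if j = i then C (eval y (monomial m' 1)) else 0) *
          (X j - C (y j)) = X i * ∑ j, Δ j * (X j - C (y j)) +
            C (eval y (monomial m' 1)) * (X i - C (y i)) := by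
        simp only [add_mul, Finset.sum_add_distrib, ite_mul, zero_mul, Finset.sum_ite_eq',
          Finset.mem_univ, if_true, Finset.mul_sum]
        congr 1
        refine Finset.sum_congr rfl fun j _ => ?_
        ring
      rw [h4, ← h1, h3, map_mul, eval_X, C_mul]
      ring
    · intro j
      right
      have h5 : (if j = i then C (eval y (monomial m' (1 : A))) else 0 :
          MvPolynomial (Fin N) A).totalDegree = 0 := by
        split_ifs
        · exact totalDegree_C _
        · exact totalDegree_zero
      have h6 : (X i * Δ j).totalDegree ≤ n := by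
        rcases h2 j with h7 | h7
        · rw [h7, mul_zero, totalDegree_zero]
          exact Nat.zero_le _
        · refine (totalDegree_mul _ _).trans ?_
          have h8 : (X i : MvPolynomial (Fin N) A).totalDegree ≤ 1 := by
            rw [X]
            refine (totalDegree_monomial_le _ _).trans ?_
            simp
          omega
      have h9 := totalDegree_add (X i * Δ j)
        (if j = i then C (eval y (monomial m' (1 : A))) else 0)
      rw [h5] at h9
      have h10 : max (X i * Δ j).totalDegree 0 ≤ n := max_le h6 (Nat.zero_le _)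
      exact Nat.succ_le_succ (h9.trans h10)

theorem exists_bez (φ : R →+* A) (y : Fin N → A) (h : MvPolynomial (Fin N) R) :
    ∃ Δ : Fin N → MvPolynomial (Fin N) A,
      map φ h - C (eval₂ φ y h) = ∑ j, Δ j * (X j - C (y j)) ∧
      ∀ j, (Δ j).totalDegree ≤ h.totalDegree - 1 := by
  choose Δ h1 h2 using fun m => exists_bez_monomial y (Finsupp.degree m) m rfl
  refine ⟨fun j => ∑ m ∈ h.support, C (φ (coeff m h)) * Δ m j, ?_, ?_⟩
  · have h3 : map φ h = ∑ m ∈ h.support, C (φ (coeff m h)) * monomial m 1 := by
      conv_lhs => rw [h.as_sum, map_sum]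
      refine Finset.sum_congr rfl fun m _ => ?_
      rw [map_monomial, C_mul_monomial, mul_one]
    have h4 : eval₂ φ y h = ∑ m ∈ h.support, φ (coeff m h) * eval y (monomial m 1) := by
      rw [eval₂_eq]
      refine Finset.sum_congr rfl fun m _ => ?_
      rw [eval_monomial, one_mul]
      rfl
    rw [h3, h4, map_sum, ← Finset.sum_sub_distrib]
    have h5 : ∀ m ∈ h.support, C (φ (coeff m h)) * monomial m 1 -
        C (φ (coeff m h) * eval y (monomial m 1)) =
        ∑ j, C (φ (coeff m h)) * Δ m j * (X j - C (y j)) := by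
      intro m _
      rw [C_mul, ← mul_sub, h1, Finset.mul_sum]
      refine Finset.sum_congr rfl fun j _ => ?_
      ring
    rw [Finset.sum_congr rfl h5, Finset.sum_comm]
    refine Finset.sum_congr rfl fun j _ => ?_
    rw [Finset.sum_mul]
  · intro j
    refine (totalDegree_finsetSum _ _).trans (Finset.sup_le fun m hm => ?_)
    refine (totalDegree_mul _ _).trans ?_
    rw [totalDegree_C, zero_add]
    have h3 : Finsupp.degree m ≤ h.totalDegree := by
      have h4 := le_totalDegree hm
      exact h4
    rcases h2 m j with h5 | h5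
    · rw [h5, totalDegree_zero]
      exact Nat.zero_le _
    · omega

theorem bez_eval (φ : R →+* A) (y : Fin N → A) (h : MvPolynomial (Fin N) R)
    (Δ : Fin N → MvPolynomial (Fin N) A)
    (hΔ : map φ h - C (eval₂ φ y h) = ∑ j, Δ j * (X j - C (y j))) (j : Fin N) :
    eval y (Δ j) = eval₂ φ y (pderiv j h) := by
  have h1 := congrArg (fun p => eval y (pderiv j p)) hΔ
  simp only [map_sub, map_sum, pderiv_C, sub_zero, Derivation.leibniz, smul_eq_mul, map_add,
    map_mul, eval_X, eval_C, sub_self, zero_mul, add_zero, pderiv_X] at h1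
  rw [pderiv_map, eval_map] at h1
  rw [h1, Finset.sum_eq_single j]
  · rw [Pi.single_eq_same, map_one, mul_one]
  · intro k _ hk
    rw [Pi.single_eq_of_ne hk, map_zero, mul_zero]
  · intro hj
    exact absurd (Finset.mem_univ j) hj

theorem exists_bez_pow (y : Fin N → A) {d : ℕ} (hd : 2 ≤ d) (i : Fin N) :
    ∃ Δ : MvPolynomial (Fin N) A, X i ^ d - C (y i ^ d) = Δ * (X i - C (y i)) ∧
      (Δ - X i ^ (d - 1)).totalDegree < d - 1 := by
  refine ⟨∑ a ∈ Finset.range d, X i ^ a * C (y i) ^ (d - 1 - a), ?_, ?_⟩
  · rw [geom_sum₂_mul, C_pow]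
  · obtain ⟨e, rfl⟩ : ∃ e, d = e + 1 := ⟨d - 1, by omega⟩
    rw [Finset.sum_range_succ]
    simp only [Nat.add_sub_cancel, Nat.sub_self, pow_zero, mul_one, add_sub_cancel_right]
    have h1 : (∑ a ∈ Finset.range e, X i ^ a * C (y i) ^ (e - a) :
        MvPolynomial (Fin N) A).totalDegree ≤ e - 1 := by
      refine (totalDegree_finsetSum _ _).trans (Finset.sup_le fun a ha => ?_)
      have ha' := Finset.mem_range.1 ha
      refine (totalDegree_mul _ _).trans ?_
      rw [← C_pow, totalDegree_C, add_zero]
      refine le_trans ?_ (Nat.le_sub_one_of_lt ha')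
      rw [X_pow_eq_monomial]
      refine (totalDegree_monomial_le _ _).trans ?_
      simp
    omega

end Vale.Agent.P337
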