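import Mathlib
import Vale.Agent.Lib.P337.Alg.RhoB

/-!
P337, algebra side: the residue of the Bezoutian determinant.
-/

namespace Vale.Agent.P337

open MvPolynomial

variable {N : ℕ} {R A : Type} [CommRing R] [CommRing A]

theorem totalDegree_X_pow_le' (i : Fin N) (k : ℕ) :
    (X i ^ k : MvPolynomial (Fin N) A).totalDegree ≤ k := by
  rw [X_pow_eq_monomial]
  refine (totalDegree_monomial_le _ _).trans ?_
  simp

theorem totalDegree_prod_lt {n : ℕ} {f : Fin N → MvPolynomial (Fin N) A}
    (h : ∀ i, (f i).totalDegree ≤ n) {i : Fin N} (hi : (f i).totalDegree < n) :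
    (∏ i, f i).totalDegree < N * n := by
  refine lt_of_le_of_lt (totalDegree_finsetProd _ _) ?_
  have h1 : ∑ i, (f i).totalDegree < ∑ _i : Fin N, n :=
    Finset.sum_lt_sum (fun i _ => h i) ⟨i, Finset.mem_univ i, hi⟩
  rwa [Finset.sum_const, Finset.card_univ, Fintype.card_fin, smul_eq_mul] at h1

/-- the residue of the Bezoutian determinant is `1` -/
theorem rhoL_det {d : ℕ} (hd : 2 ≤ d) {H : Fin N → MvPolynomial (Fin N) A}
    (hH : ∀ i, (H i).totalDegree < d) (Δ : Matrix (Fin N) (Fin N) (MvPolynomial (Fin N) A))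
    (hΔ : ∀ i j, (Δ i j - if i = j then X i ^ (d - 1) else 0).totalDegree < d - 1) :
    rhoL d H Δ.det = 1 := by
  classical
  have hd1 : 1 ≤ d := by omega
  have hle : ∀ i j, (Δ i j).totalDegree ≤ d - 1 := by
    intro i j
    have h1 : Δ i j = (Δ i j - if i = j then X i ^ (d - 1) else 0) +
        (if i = j then X i ^ (d - 1) else 0) := by ring
    rw [h1]
    refine (totalDegree_add _ _).trans (max_le (hΔ i j).le ?_)
    by_cases hij : i = j
    · rw [if_pos hij]
      exact totalDegree_X_pow_le' i (d - 1)
    · rw [if_neg hij]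
      simp
  have hoff : ∀ i j, i ≠ j → (Δ i j).totalDegree < d - 1 := by
    intro i j hij
    have h1 := hΔ i j
    rwa [if_neg hij, sub_zero] at h1
  rw [Matrix.det_apply, map_sum, Finset.sum_eq_single (1 : Equiv.Perm (Fin N))]
  · -- identity
    rw [Equiv.Perm.sign_one, one_smul]
    have h1 : ∏ i, Δ ((1 : Equiv.Perm (Fin N)) i) i =
        ∏ i, (X i ^ (d - 1) + (Δ i i - X i ^ (d - 1))) := by
      refine Finset.prod_congr rfl fun i _ => ?_
      rw [Equiv.Perm.one_apply]
      ring
    rw [h1, Finset.prod_add, map_sum, Finset.sum_eq_single Finset.univ]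
    · rw [Finset.sdiff_self, Finset.prod_empty, mul_one]
      have h2 : ∏ i : Fin N, (X i : MvPolynomial (Fin N) A) ^ (d - 1) =
          monomial (Finsupp.equivFunOnFinite.symm fun _ => d - 1) 1 := by
        rw [monomial_eq, map_one, one_mul, Finsupp.prod_fintype _ _ (fun _ => pow_zero _)]
        rfl
      rw [h2, rhoL_monomial hd1 hH, if_pos]
      · intro i
        rfl
      · rw [Finsupp.degree_eq_sum]
        simp
    · intro t _ ht
      obtain ⟨i, hi⟩ : ∃ i, i ∉ t := by
        by_contra hcon
        push Not at hcon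
        exact ht (Finset.eq_univ_iff_forall.2 hcon)
      apply rhoL_low hd1 hH
      have h3 : (∏ i ∈ t, (X i : MvPolynomial (Fin N) A) ^ (d - 1)) *
          ∏ i ∈ Finset.univ \ t, (Δ i i - X i ^ (d - 1)) =
          ∏ i, if i ∈ t then X i ^ (d - 1) else Δ i i - X i ^ (d - 1) := by
        rw [Finset.prod_ite]
        congr 1
        · refine Finset.prod_congr ?_ fun _ _ => rfl
          ext j
          simp
        · refine Finset.prod_congr ?_ fun _ _ => rfl
          ext j
          simp
      rw [h3]
      have h4 : ∀ j, (Δ j j - X j ^ (d - 1)).totalDegree < d - 1 := by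
        intro j
        have h5 := hΔ j j
        rwa [if_pos rfl] at h5
      refine totalDegree_prod_lt (i := i) (fun j => ?_) ?_
      · by_cases hj : j ∈ t
        · rw [if_pos hj]
          exact totalDegree_X_pow_le' j (d - 1)
        · rw [if_neg hj]
          exact (h4 j).le
      · rw [if_neg hi]
        exact h4 i
    · intro h
      exact absurd (Finset.mem_powerset.2 (Finset.Subset.refl _)) h
  · intro σ _ hσ
    obtain ⟨i, hi⟩ : ∃ i, σ i ≠ i := by
      by_contra hcon
      push Not at hcon
      exact hσ (Equiv.ext hcon)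
    have h1 : rhoL d H (∏ i, Δ (σ i) i) = 0 := by
      apply rhoL_low hd1 hH
      exact totalDegree_prod_lt (i := i) (fun j => hle _ _) (hoff _ _ hi)
    rcases Int.units_eq_one_or (Equiv.Perm.sign σ) with h | h
    · rw [h, one_smul, h1]
    · rw [h, Units.neg_smul, one_smul, map_neg, h1, neg_zero]
  · intro h
    exact absurd (Finset.mem_univ _) h

end Vale.Agent.P337
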