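import Mathlib
import Vale.Agent.Lib.P337.Alg.Bez
import Vale.Agent.Lib.P337.Alg.BezDet

/-!
P337, algebra side: the Bezoutian.
-/

namespace Vale.Agent.P337

open MvPolynomial

variable {N : ℕ} {R : Type} [CommRing R]

/-- the Jacobian determinant -/
noncomputable def jac (d : ℕ) (H : Fin N → MvPolynomial (Fin N) R) : MvPolynomial (Fin N) R :=
  Matrix.det (Matrix.of fun i j => pderiv j (Fs d H i))

theorem eval₂_class (d : ℕ) (H : Fin N → MvPolynomial (Fin N) R) (h : MvPolynomial (Fin N) R) :
    eval₂ (algebraMap R (QA d H)) (fun i => qmk d H (X i)) h = qmk d H h := by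
  have h1 : (aeval fun i => qmk d H (X i) : MvPolynomial (Fin N) R →ₐ[R] QA d H) = qmk d H := by
    apply MvPolynomial.algHom_ext
    intro i
    simp
  have h2 := congrArg (fun f : MvPolynomial (Fin N) R →ₐ[R] QA d H => f h) h1
  simpa [aeval_def] using h2

theorem qmk_Fs (d : ℕ) (H : Fin N → MvPolynomial (Fin N) R) (i : Fin N) :
    qmk d H (Fs d H i) = 0 := by
  have : Fs d H i ∈ Ideal.span (Set.range (Fs d H)) := Ideal.subset_span ⟨i, rfl⟩
  exact Ideal.Quotient.eq_zero_iff_mem.2 this

theorem totalDegree_map_lt {A : Type} [CommRing A] (φ : R →+* A) (h : MvPolynomial (Fin N) R) :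
    (map φ h).totalDegree ≤ h.totalDegree := by
  rw [totalDegree, totalDegree]
  exact Finset.sup_mono (support_map_subset φ h)

/-- abstract version of the Bezoutian -/
theorem exists_bezoutian_aux {A : Type} [CommRing A] (φ : R →+* A) (y : Fin N → A) {d : ℕ}
    (hd : 2 ≤ d) {H : Fin N → MvPolynomial (Fin N) R} (hH : ∀ i, (H i).totalDegree < d)
    (hy : ∀ i, y i ^ d = eval₂ φ y (H i)) :
    ∃ Δ : MvPolynomial (Fin N) A,
      (∀ g : MvPolynomial (Fin N) R,
        rhoL d (fun i => map φ (H i)) (map φ g * Δ) = eval₂ φ y g) ∧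
      eval y Δ = eval₂ φ y (jac d H) := by
  have hHA : ∀ i, (map φ (H i)).totalDegree < d := fun i =>
    lt_of_le_of_lt (totalDegree_map_lt φ (H i)) (hH i)
  choose ΔH hΔH hΔHdeg using fun i => exists_bez φ y (H i)
  choose ΔX hΔX hΔXdeg using fun i => exists_bez_pow y hd i
  set M : Matrix (Fin N) (Fin N) (MvPolynomial (Fin N) A) :=
    Matrix.of fun i j => (if i = j then ΔX i else 0) - ΔH i j with hM
  set v : Fin N → MvPolynomial (Fin N) A := fun j => X j - C (y j) with hv
  set F : Fin N → MvPolynomial (Fin N) A := Fs d (fun i => map φ (H i)) with hFdef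
  -- the equations
  have hF : ∀ i, F i = ∑ j, M i j * v j := by
    intro i
    have h2 := hΔX i
    have h3 := hΔH i
    have h4 : F i = (X i ^ d - C (y i ^ d)) - (map φ (H i) - C (eval₂ φ y (H i))) := by
      rw [hFdef, Fs, hy]
      ring
    rw [h4, h2, h3]
    simp only [hM, hv, Matrix.of_apply, sub_mul, Finset.sum_sub_distrib, ite_mul, zero_mul,
      Finset.sum_ite_eq, Finset.mem_univ, if_true]
  have hFv : M.mulVec v = F := by
    funext i
    rw [hF i]
    rfl
  have hdet : ∀ j, M.det * v j ∈ Ideal.span (Set.range F) := by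
    intro j
    have h1 : M.adjugate.mulVec (M.mulVec v) = M.det • v := by
      rw [Matrix.mulVec_mulVec, Matrix.adjugate_mul, Matrix.smul_mulVec, Matrix.one_mulVec]
    have h2 := congrFun h1 j
    rw [hFv] at h2
    rw [Pi.smul_apply, smul_eq_mul] at h2
    rw [← h2]
    show ∑ i, M.adjugate j i * F i ∈ Ideal.span (Set.range F)
    refine Ideal.sum_mem _ fun i _ => ?_
    have h3 : F i ∈ Ideal.span (Set.range F) := Ideal.subset_span ⟨i, rfl⟩
    exact Ideal.mul_mem_left _ _ h3
  have hρ : rhoL d (fun i => map φ (H i)) M.det = 1 := by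
    apply rhoL_det hd hHA
    intro i j
    have h1 : (ΔH i j).totalDegree < d - 1 := by
      have := hΔHdeg i j
      have := hH i
      omega
    by_cases hij : i = j
    · subst hij
      have h2 : M i i - (if i = i then X i ^ (d - 1) else 0) = (ΔX i - X i ^ (d - 1)) - ΔH i i := by
        simp only [hM, Matrix.of_apply, if_true]
        ring
      rw [h2]
      exact lt_of_le_of_lt (totalDegree_sub _ _) (max_lt (hΔXdeg i) h1)
    · have h2 : M i j - (if i = j then X i ^ (d - 1) else 0) = -ΔH i j := by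
        simp [hM, hij]
      rw [h2, totalDegree_neg]
      exact h1
  refine ⟨M.det, ?_, ?_⟩
  · intro g
    obtain ⟨Δg, hg, -⟩ := exists_bez φ y g
    have h1 : (map φ g - C (eval₂ φ y g)) * M.det ∈ Ideal.span (Set.range F) := by
      rw [hg, Finset.sum_mul]
      refine Ideal.sum_mem _ fun j _ => ?_
      have : Δg j * (X j - C (y j)) * M.det = Δg j * (M.det * v j) := by
        simp only [hv]
        ring
      rw [this]
      exact Ideal.mul_mem_left _ _ (hdet j)
    have h2 := rhoL_ideal (by omega : 1 ≤ d) hHA h1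
    rw [sub_mul, map_sub, sub_eq_zero] at h2
    rw [h2, ← smul_eq_C_mul, map_smul, hρ, smul_eq_mul, mul_one]
  · have h1 : ∀ i j, eval y (M i j) = eval₂ φ y (pderiv j (Fs d H i)) := by
      intro i j
      apply bez_eval φ y (Fs d H i) (fun j => M i j)
      have h2 : map φ (Fs d H i) = F i := by
        simp [Fs, hFdef]
      have h3 : eval₂ φ y (Fs d H i) = 0 := by
        simp [Fs, hy]
      rw [h3, map_zero, sub_zero, h2, hF i]
    rw [RingHom.map_det, jac]
    have h4 : eval₂ φ y (Matrix.of fun i j => pderiv j (Fs d H i)).det =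
        (eval₂Hom φ y) (Matrix.of fun i j => pderiv j (Fs d H i)).det := rfl
    rw [h4, RingHom.map_det]
    congr 1
    ext i j
    exact h1 i j

/-- the Bezoutian, as an element of `A[x]`, `A` the quotient algebra -/
theorem exists_bezoutian {d : ℕ} (hd : 2 ≤ d) {H : Fin N → MvPolynomial (Fin N) R}
    (hH : ∀ i, (H i).totalDegree < d) :
    ∃ Δ : MvPolynomial (Fin N) (QA d H),
      (∀ g : MvPolynomial (Fin N) R,
        rhoL d (fun i => map (algebraMap R (QA d H)) (H i)) (map (algebraMap R (QA d H)) g * Δ) =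
          qmk d H g) ∧
      eval (fun i => qmk d H (X i)) Δ = qmk d H (jac d H) := by
  obtain ⟨Δ, h1, h2⟩ := exists_bezoutian_aux (algebraMap R (QA d H)) (fun i => qmk d H (X i)) hd hH
    (by
      intro i
      have h := qmk_Fs d H i
      rw [Fs, map_sub, map_pow, sub_eq_zero] at h
      rw [h, eval₂_class])
  refine ⟨Δ, fun g => ?_, ?_⟩
  · rw [h1, eval₂_class]
  · rw [h2, eval₂_class]

end Vale.Agent.P337
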