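import Mathlib

/-!
P337, algebra side: Newton's identities for matrices.
-/

namespace Vale.Agent.P337

/-! ### the derivative of a determinant -/

/-- the derivative of a determinant is the sum over the columns -/
theorem charNewton_derivative_det {K n : Type} [Field K] [Fintype n] [DecidableEq n]
    (A : Matrix n n (Polynomial K)) :
    Polynomial.derivative A.det =
      ∑ i, (A.updateCol i fun j => Polynomial.derivative (A j i)).det := by
  rw [Matrix.det_apply', Polynomial.derivative_sum]
  have h1 : ∀ i, (A.updateCol i fun j => Polynomial.derivative (A j i)).det =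
      ∑ σ : Equiv.Perm n, ((Equiv.Perm.sign σ : ℤ) : Polynomial K) *
        ((∏ j ∈ Finset.univ.erase i, A (σ j) j) * Polynomial.derivative (A (σ i) i)) := by
    intro i
    rw [Matrix.det_apply']
    apply Finset.sum_congr rfl
    intro σ _
    congr 1
    rw [← Finset.mul_prod_erase Finset.univ _ (Finset.mem_univ i), mul_comm]
    congr 1
    · apply Finset.prod_congr rfl
      intro j hj
      rw [Matrix.updateCol_ne (Finset.ne_of_mem_erase hj)]
    · rw [Matrix.updateCol_self]
  simp_rw [h1]
  rw [Finset.sum_comm]
  apply Finset.sum_congr rfl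
  intro σ _
  rw [Polynomial.derivative_intCast_mul, Polynomial.derivative_prod_finset, Finset.mul_sum]

/-- the derivative of the characteristic polynomial is the trace of the adjugate -/
theorem charNewton_derivative_charpoly {K n : Type} [Field K] [Fintype n] [DecidableEq n]
    (M : Matrix n n K) :
    Polynomial.derivative M.charpoly = M.charmatrix.adjugate.trace := by
  unfold Matrix.charpoly
  rw [charNewton_derivative_det]
  unfold Matrix.trace
  apply Finset.sum_congr rfl
  intro i _
  have h1 : (fun j => Polynomial.derivative (M.charmatrix j i)) = Pi.single i 1 := by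
    funext j
    by_cases hj : j = i
    · subst hj
      rw [Matrix.charmatrix_apply_eq, Pi.single_eq_same]
      simp
    · rw [Matrix.charmatrix_apply_ne _ _ _ hj, Pi.single_eq_of_ne hj]
      simp
  rw [h1, ← Matrix.cramer_apply, Matrix.cramer_eq_adjugate_mulVec]
  simp

/-- the coefficient matrices of the adjugate -/
noncomputable def charNewtonB {K n : Type} [Field K] [Fintype n] [DecidableEq n]
    (M : Matrix n n K) (j : ℕ) : Matrix n n K :=
  (matPolyEquiv M.charmatrix.adjugate).coeff j

theorem charNewtonB_trace {K n : Type} [Field K] [Fintype n] [DecidableEq n]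
    (M : Matrix n n K) (j : ℕ) :
    (charNewtonB M j).trace = M.charpoly.coeff (j + 1) * ((j : K) + 1) := by
  have h1 := congrArg (fun p => Polynomial.coeff p j) (charNewton_derivative_charpoly M)
  simp only [Polynomial.coeff_derivative] at h1
  rw [h1]
  unfold Matrix.trace
  rw [Polynomial.finsetSum_coeff]
  apply Finset.sum_congr rfl
  intro i _
  unfold charNewtonB
  rw [Matrix.diag_apply, Matrix.diag_apply, matPolyEquiv_coeff_apply]

theorem charNewtonB_rec {K n : Type} [Field K] [Fintype n] [DecidableEq n]
    (M : Matrix n n K) (j : ℕ) :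
    charNewtonB M j = charNewtonB M (j + 1) * M + M.charpoly.coeff (j + 1) • 1 := by
  have h1 : matPolyEquiv (M.charmatrix.adjugate * M.charmatrix) =
      M.charpoly.map (algebraMap K (Matrix n n K)) := by
    rw [Matrix.adjugate_mul, ← matPolyEquiv_smul_one]
    rfl
  rw [map_mul, Matrix.matPolyEquiv_charmatrix, mul_sub] at h1
  have h2 := congrArg (fun p => Polynomial.coeff p (j + 1)) h1
  simp only [Polynomial.coeff_sub, Polynomial.coeff_mul_X, Polynomial.coeff_mul_C,
    Polynomial.coeff_map] at h2
  unfold charNewtonB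
  rw [sub_eq_iff_eq_add] at h2
  rw [h2, Algebra.algebraMap_eq_smul_one, add_comm]

theorem charNewtonB_iter {K n : Type} [Field K] [Fintype n] [DecidableEq n]
    (M : Matrix n n K) (j N : ℕ) :
    charNewtonB M j = charNewtonB M (j + N) * M ^ N +
      ∑ i ∈ Finset.range N, M.charpoly.coeff (j + 1 + i) • M ^ i := by
  induction N with
  | zero => simp
  | succ N ih =>
    rw [ih, charNewtonB_rec M (j + N), Finset.sum_range_succ, add_mul, mul_assoc, ← pow_succ',
      smul_mul_assoc, one_mul, show j + N + 1 = j + 1 + N by ring, show j + (N + 1) = j + 1 + N by ring]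
    abel

theorem charNewtonB_card {K n : Type} [Field K] [Fintype n] [DecidableEq n]
    (M : Matrix n n K) : charNewtonB M (Fintype.card n) = 0 := by
  obtain ⟨N, hN⟩ : ∃ N, charNewtonB M (Fintype.card n + N) = 0 := by
    refine ⟨(matPolyEquiv M.charmatrix.adjugate).natDegree + 1, ?_⟩
    apply Polynomial.coeff_eq_zero_of_natDegree_lt
    omega
  rw [charNewtonB_iter M _ N, hN, zero_mul, zero_add]
  apply Finset.sum_eq_zero
  intro i _
  rw [Polynomial.coeff_eq_zero_of_natDegree_lt, zero_smul]
  rw [Matrix.charpoly_natDegree_eq_dim]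
  omega

/-- Newton's identities, unsigned form -/
theorem charNewton_aux {K n : Type} [Field K] [Fintype n] [DecidableEq n] (M : Matrix n n K)
    {k : ℕ} (hkD : k ≤ Fintype.card n) :
    (k : K) * M.charpoly.coeff (Fintype.card n - k) +
      ∑ i ∈ Finset.Ico 1 (k + 1), M.charpoly.coeff (Fintype.card n - k + i) * (M ^ i).trace = 0 := by
  set D := Fintype.card n with hD
  have htr0 : (M ^ 0).trace = (D : K) := by rw [pow_zero, Matrix.trace_one]
  have hsum : ∀ f : ℕ → K, ∑ i ∈ Finset.range (k + 1), f i =
      f 0 + ∑ i ∈ Finset.Ico 1 (k + 1), f i := by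
    intro f
    rw [Finset.range_eq_Ico, Finset.sum_eq_sum_Ico_succ_bot (Nat.succ_pos k)]
  rcases Nat.lt_or_ge k D with hk | hk
  · have h1 := charNewtonB_iter M (D - 1 - k) (k + 1)
    rw [show D - 1 - k + (k + 1) = D by omega, charNewtonB_card, zero_mul, zero_add,
      show D - 1 - k + 1 = D - k by omega] at h1
    have h2 := congrArg Matrix.trace h1
    rw [charNewtonB_trace, Matrix.trace_sum, show D - 1 - k + 1 = D - k by omega] at h2
    simp only [Matrix.trace_smul, smul_eq_mul] at h2
    rw [hsum, add_zero, htr0] at h2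
    have h3 : ((D - 1 - k : ℕ) : K) + 1 = (D : K) - k := by
      have h4 : (D - 1 - k) + 1 + k = D := by omega
      have h5 : (((D - 1 - k) + 1 + k : ℕ) : K) = (D : K) := congrArg Nat.cast h4
      push_cast at h5
      linear_combination h5
    rw [h3] at h2
    linear_combination -h2
  · have hkD' : k = D := le_antisymm hkD hk
    have h1 := Matrix.aeval_self_charpoly M
    rw [Polynomial.aeval_eq_sum_range, Matrix.charpoly_natDegree_eq_dim, ← hD, ← hkD'] at h1
    have h2 := congrArg Matrix.trace h1
    rw [Matrix.trace_sum, Matrix.trace_zero] at h2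
    simp only [Matrix.trace_smul, smul_eq_mul] at h2
    rw [hsum, htr0] at h2
    rw [← hkD', Nat.sub_self]
    simp only [zero_add]
    rw [← hkD'] at h2
    linear_combination h2

/-- Newton's identities for matrices -/
theorem charpoly_newton {K n : Type} [Field K] [Fintype n] [DecidableEq n] (M : Matrix n n K)
    {k : ℕ} (hk : 1 ≤ k) (hkD : k ≤ Fintype.card n) :
    (k : K) * ((-1) ^ k * M.charpoly.coeff (Fintype.card n - k)) =
      ∑ i ∈ Finset.Ico 1 (k + 1), (-1) ^ (i - 1) * (M ^ i).trace *
        ((-1) ^ (k - i) * M.charpoly.coeff (Fintype.card n - (k - i))) := by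
  have h1 := charNewton_aux M hkD
  have h2 : ∑ i ∈ Finset.Ico 1 (k + 1), (-1) ^ (i - 1) * (M ^ i).trace *
        ((-1) ^ (k - i) * M.charpoly.coeff (Fintype.card n - (k - i))) =
      (-1) ^ (k - 1) * ∑ i ∈ Finset.Ico 1 (k + 1),
        M.charpoly.coeff (Fintype.card n - k + i) * (M ^ i).trace := by
    rw [Finset.mul_sum]
    apply Finset.sum_congr rfl
    intro i hi
    rw [Finset.mem_Ico] at hi
    have e1 : Fintype.card n - (k - i) = Fintype.card n - k + i := by omega
    have e2 : ((-1 : K)) ^ (k - 1) = (-1) ^ (i - 1) * (-1) ^ (k - i) := by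
      rw [← pow_add]
      congr 1
      omega
    rw [e1, e2]
    ring
  rw [h2]
  have e3 : ((-1 : K)) ^ k = -(-1) ^ (k - 1) := by
    obtain ⟨m, rfl⟩ : ∃ m, k = m + 1 := ⟨k - 1, by omega⟩
    rw [Nat.add_sub_cancel, pow_succ]
    ring
  rw [e3]
  linear_combination -(-1) ^ (k - 1) * h1

end Vale.Agent.P337
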