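import Mathlib

/-!
P337, algebra side: the exponential formula satisfies the Newton recursion.
-/

namespace Vale.Agent.P337

/-- the exponential formula for elementary symmetric functions -/
noncomputable def expc {K : Type} [Field K] (D : ℕ) (S : ℕ → K) (j : ℕ) : K :=
  ∑ l ∈ Finset.range (j + 1), ((l.factorial : ℕ) : K)⁻¹ *
    ((∑ i ∈ Finset.Ico 1 (D + 1), Polynomial.C ((-1) ^ (i - 1) * S i * ((i : ℕ) : K)⁻¹) *
      Polynomial.X ^ i) ^ l).coeff j

/-- the exponent -/
noncomputable def expcG {K : Type} [Field K] (D : ℕ) (S : ℕ → K) : Polynomial K :=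
  ∑ i ∈ Finset.Ico 1 (D + 1), Polynomial.C ((-1) ^ (i - 1) * S i * ((i : ℕ) : K)⁻¹) *
      Polynomial.X ^ i

theorem expcG_coeff {K : Type} [Field K] {D : ℕ} (S : ℕ → K) {a : ℕ} (ha : a + 1 ≤ D) :
    (expcG D S).coeff (a + 1) = (-1) ^ a * S (a + 1) * ((a + 1 : ℕ) : K)⁻¹ := by
  unfold expcG
  rw [Polynomial.finsetSum_coeff, Finset.sum_eq_single (a + 1)]
  · rw [Polynomial.coeff_C_mul, Polynomial.coeff_X_pow, if_pos rfl, mul_one,
      Nat.add_sub_cancel]
  · intro b _ hb
    rw [Polynomial.coeff_C_mul, Polynomial.coeff_X_pow, if_neg (Ne.symm hb), mul_zero]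
  · intro h
    exact absurd (Finset.mem_Ico.2 ⟨by omega, by omega⟩) h

theorem expcG_pow_coeff {K : Type} [Field K] {D : ℕ} (S : ℕ → K) {j l : ℕ} (h : j < l) :
    (expcG D S ^ l).coeff j = 0 := by
  have h1 : Polynomial.X ∣ expcG D S := by
    unfold expcG
    refine Finset.dvd_sum fun i hi => ?_
    refine Dvd.dvd.mul_left (dvd_pow_self _ ?_) _
    have := (Finset.mem_Ico.1 hi).1
    omega
  exact Polynomial.X_pow_dvd_iff.1 (pow_dvd_pow_of_dvd h1 l) j h

/-- the truncated exponential -/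
noncomputable def expcE {K : Type} [Field K] (D : ℕ) (S : ℕ → K) : Polynomial K :=
  ∑ l ∈ Finset.range (D + 1), Polynomial.C (((l.factorial : ℕ) : K)⁻¹) * expcG D S ^ l

theorem expcE_coeff {K : Type} [Field K] {D : ℕ} (S : ℕ → K) {j : ℕ} (hj : j ≤ D) :
    (expcE D S).coeff j = expc D S j := by
  have h0 : expc D S j = ∑ l ∈ Finset.range (j + 1), ((l.factorial : ℕ) : K)⁻¹ *
    (expcG D S ^ l).coeff j := rfl
  rw [h0]
  unfold expcE
  rw [Polynomial.finsetSum_coeff]
  simp only [Polynomial.coeff_C_mul]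
  symm
  refine Finset.sum_subset ?_ ?_
  · intro x hx
    rw [Finset.mem_range] at hx ⊢
    omega
  · intro x _ hx
    rw [Finset.mem_range] at hx
    rw [expcG_pow_coeff S (by omega), mul_zero]

theorem expcE_derivative {K : Type} [Field K] {D : ℕ}
    (hK : ∀ i ∈ Finset.Ico 1 (D + 1), (i : K) ≠ 0) (S : ℕ → K) :
    Polynomial.derivative (expcE D S) =
      Polynomial.derivative (expcG D S) *
        ∑ l ∈ Finset.range D, Polynomial.C (((l.factorial : ℕ) : K)⁻¹) * expcG D S ^ l := by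
  unfold expcE
  rw [Polynomial.derivative_sum, Finset.sum_range_succ', Finset.mul_sum]
  simp only [pow_zero, mul_one, Polynomial.derivative_C, add_zero]
  refine Finset.sum_congr rfl fun l hl => ?_
  have hl' := Finset.mem_range.1 hl
  have hne := hK (l + 1) (Finset.mem_Ico.2 ⟨by omega, by omega⟩)
  rw [Polynomial.derivative_C_mul, Polynomial.derivative_pow, Nat.add_sub_cancel]
  have h1 : (((l + 1).factorial : ℕ) : K)⁻¹ * ((l + 1 : ℕ) : K) = ((l.factorial : ℕ) : K)⁻¹ := by
    rw [Nat.factorial_succ, Nat.cast_mul, mul_inv, mul_comm (((l + 1 : ℕ) : K)⁻¹), mul_assoc,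
      inv_mul_cancel₀ hne, mul_one]
  rw [← h1, Polynomial.C_mul]
  ring

/-- the exponential formula satisfies the Newton recursion -/
theorem expc_newton {K : Type} [Field K] {D : ℕ} (hK : ∀ i ∈ Finset.Ico 1 (D + 1), (i : K) ≠ 0)
    (S : ℕ → K) {k : ℕ} (hk : 1 ≤ k) (hkD : k ≤ D) :
    (k : K) * expc D S k =
      ∑ i ∈ Finset.Ico 1 (k + 1), (-1) ^ (i - 1) * S i * expc D S (k - i) := by
  obtain ⟨m, rfl⟩ : ∃ m, k = m + 1 := ⟨k - 1, by omega⟩
  have h1 := congrArg (fun p => Polynomial.coeff p m) (expcE_derivative hK S)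
  rw [Polynomial.coeff_derivative, expcE_coeff S hkD, Polynomial.coeff_mul,
    Finset.Nat.sum_antidiagonal_eq_sum_range_succ
      (fun a b => (Polynomial.derivative (expcG D S)).coeff a *
        (∑ l ∈ Finset.range D, Polynomial.C (((l.factorial : ℕ) : K)⁻¹) * expcG D S ^ l).coeff b)
      m] at h1
  rw [Finset.sum_Ico_eq_sum_range, Nat.add_sub_cancel, Nat.cast_add, Nat.cast_one, mul_comm, h1]
  refine Finset.sum_congr rfl fun a ha => ?_
  have ha' := Finset.mem_range.1 ha
  have hne := hK (a + 1) (Finset.mem_Ico.2 ⟨by omega, by omega⟩)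
  have h2 : (∑ l ∈ Finset.range D, Polynomial.C (((l.factorial : ℕ) : K)⁻¹) *
      expcG D S ^ l).coeff (m - a) = expc D S (m - a) := by
    rw [← expcE_coeff S (by omega)]
    unfold expcE
    rw [Finset.sum_range_succ, Polynomial.coeff_add, Polynomial.coeff_C_mul,
      expcG_pow_coeff S (by omega), mul_zero, add_zero]
  rw [h2, Polynomial.coeff_derivative, expcG_coeff S (by omega)]
  have h3 : m + 1 - (1 + a) = m - a := by omega
  rw [h3, Nat.add_sub_cancel_left, Nat.add_comm 1 a]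
  have h4 : ((a + 1 : ℕ) : K)⁻¹ * ((a : K) + 1) = 1 := by
    have : ((a : K) + 1) = ((a + 1 : ℕ) : K) := by push_cast; rfl
    rw [this, inv_mul_cancel₀ hne]
  rw [mul_assoc ((-1) ^ a * S (a + 1)), h4, mul_one]

end Vale.Agent.P337
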