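import Mathlib

/-!
P337, algebra side: coefficient extraction by finite Fourier sums over prime fields.
-/

namespace Vale.Agent.P337

open MvPolynomial

variable {N : ℕ} {r : ℕ}

private theorem fourier_sum_units [Fact r.Prime] (f : ZMod r → ZMod r) :
    ∑ x ∈ Finset.Ico 1 r, f ((x : ℕ) : ZMod r) = ∑ u : (ZMod r)ˣ, f (u : ZMod r) := by
  symm
  refine Finset.sum_bij (fun (u : (ZMod r)ˣ) _ => (u : ZMod r).val) ?_ ?_ ?_ ?_
  · intro u _
    rw [Finset.mem_Ico]
    refine ⟨?_, ZMod.val_lt _⟩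
    rw [Nat.one_le_iff_ne_zero, Ne, ZMod.val_eq_zero]
    exact u.ne_zero
  · intro u _ v _ h
    exact Units.ext (ZMod.val_injective r h)
  · intro x hx
    rw [Finset.mem_Ico] at hx
    have hv : ((x : ℕ) : ZMod r).val = x := ZMod.val_cast_of_lt hx.2
    have hne : ((x : ℕ) : ZMod r) ≠ 0 := by
      intro h0
      rw [h0, ZMod.val_zero] at hv
      omega
    exact ⟨Units.mk0 _ hne, Finset.mem_univ _, hv⟩
  · intro u _
    rw [ZMod.natCast_zmod_val]

private theorem fourier_orth [Fact r.Prime] (a b : ℕ) (ha : a < r - 1) (hb : b < r - 1) :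
    ∑ x ∈ Finset.Ico 1 r, ((x : ℕ) : ZMod r) ^ a * (((x : ℕ) : ZMod r)⁻¹) ^ b =
      if a = b then -1 else 0 := by
  rw [fourier_sum_units (fun y : ZMod r => y ^ a * y⁻¹ ^ b)]
  have h1 : ∀ u : (ZMod r)ˣ, (u : ZMod r) ^ a * ((u : ZMod r)⁻¹) ^ b =
      (u : ZMod r) ^ (a + (r - 1 - b)) := by
    intro u
    have hu : (u : ZMod r) ≠ 0 := u.ne_zero
    have h2 : (u : ZMod r) ^ (r - 1) = 1 := ZMod.pow_card_sub_one_eq_one hu
    rw [inv_pow, ← div_eq_mul_inv, div_eq_iff (pow_ne_zero _ hu), ← pow_add,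
      show a + (r - 1 - b) + b = a + (r - 1) by omega, pow_add, h2, mul_one]
  rw [Finset.sum_congr rfl fun u _ => h1 u]
  have h3 := FiniteField.sum_pow_units (ZMod r) (a + (r - 1 - b))
  rw [ZMod.card] at h3
  rw [h3]
  by_cases hab : a = b
  · rw [if_pos hab, if_pos]
    exact ⟨1, by omega⟩
  · rw [if_neg hab, if_neg]
    rintro ⟨q, hq⟩
    rcases Nat.lt_or_ge q 1 with h | h
    · have : q = 0 := by omega
      rw [this, mul_zero] at hq
      omega
    · rcases Nat.lt_or_ge q 2 with h' | h'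
      · have : q = 1 := by omega
        rw [this, mul_one] at hq
        omega
      · have h5 : (r - 1) * 2 ≤ (r - 1) * q := Nat.mul_le_mul_left _ h'
        omega

theorem coeff_eq_sum [Fact r.Prime] (G : MvPolynomial (Fin N) (ZMod r)) (m : Fin N → ℕ)
    (hG : G.totalDegree < r - 1) (hm : ∀ i, m i < r - 1) :
    coeff (Finsupp.equivFunOnFinite.symm m) G =
      (-1) ^ N * ∑ z ∈ Fintype.piFinset (fun _ : Fin N => Finset.Ico 1 r),
        eval (fun i => (z i : ZMod r)) G * ∏ i, ((z i : ZMod r)⁻¹) ^ m i := by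
  have h1 : ∀ z : Fin N → ℕ, eval (fun i => (z i : ZMod r)) G * ∏ i, ((z i : ZMod r)⁻¹) ^ m i =
      ∑ d ∈ G.support, coeff d G * ∏ i, (((z i : ℕ) : ZMod r) ^ d i * ((z i : ZMod r)⁻¹) ^ m i) := by
    intro z
    rw [eval_eq', Finset.sum_mul]
    refine Finset.sum_congr rfl fun d _ => ?_
    rw [Finset.prod_mul_distrib, mul_assoc]
  rw [Finset.sum_congr rfl fun z _ => h1 z, Finset.sum_comm]
  have h2 : ∀ d ∈ G.support, ∑ z ∈ Fintype.piFinset (fun _ : Fin N => Finset.Ico 1 r),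
      coeff d G * ∏ i, (((z i : ℕ) : ZMod r) ^ d i * ((z i : ZMod r)⁻¹) ^ m i) =
      if d = Finsupp.equivFunOnFinite.symm m then (-1) ^ N * coeff d G else 0 := by
    intro d hd
    have hdi : ∀ i, d i < r - 1 := by
      intro i
      refine lt_of_le_of_lt ?_ hG
      refine le_trans ?_ (le_totalDegree hd)
      rw [Finsupp.sum]
      by_cases hi : i ∈ d.support
      · exact Finset.single_le_sum (f := fun j => d j) (fun _ _ => Nat.zero_le _) hi
      · rw [Finsupp.notMem_support_iff.mp hi]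
        exact Nat.zero_le _
    rw [← Finset.mul_sum]
    have h3 := Finset.prod_univ_sum (fun _ : Fin N => Finset.Ico 1 r)
      (fun i x => ((x : ℕ) : ZMod r) ^ d i * (((x : ℕ) : ZMod r)⁻¹) ^ m i)
    rw [← h3, Finset.prod_congr rfl fun i _ => fourier_orth (d i) (m i) (hdi i) (hm i)]
    by_cases hdm : d = Finsupp.equivFunOnFinite.symm m
    · rw [if_pos hdm, Finset.prod_congr rfl (g := fun _ => (-1 : ZMod r)), Finset.prod_const,
        Finset.card_univ, Fintype.card_fin, mul_comm]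
      intro i _
      rw [if_pos]
      rw [hdm]
      rfl
    · rw [if_neg hdm]
      obtain ⟨i, hi⟩ : ∃ i, d i ≠ m i := by
        by_contra hcon
        push Not at hcon
        exact hdm (Finsupp.ext fun i => hcon i)
      rw [Finset.prod_eq_zero (Finset.mem_univ i) (if_neg hi), mul_zero]
  rw [Finset.sum_congr rfl h2, Finset.sum_ite_eq']
  have h4 : ((-1 : ZMod r)) ^ N * (-1) ^ N = 1 := by
    rw [← mul_pow, neg_one_mul, neg_neg, one_pow]
  by_cases hms : Finsupp.equivFunOnFinite.symm m ∈ G.support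
  · rw [if_pos hms, ← mul_assoc, h4, one_mul]
  · rw [if_neg hms, mul_zero]
    exact notMem_support_iff.mp hms

theorem polynomial_coeff_eq_sum [Fact r.Prime] (G : Polynomial (ZMod r)) (j : ℕ)
    (hG : G.natDegree < r - 1) (hj : j < r - 1) :
    G.coeff j = -∑ x ∈ Finset.Ico 1 r, G.eval ((x : ℕ) : ZMod r) * (((x : ℕ) : ZMod r)⁻¹) ^ j := by
  have h1 : ∀ x : ℕ, G.eval ((x : ℕ) : ZMod r) * (((x : ℕ) : ZMod r)⁻¹) ^ j =
      ∑ d ∈ Finset.range (r - 1),
        G.coeff d * (((x : ℕ) : ZMod r) ^ d * (((x : ℕ) : ZMod r)⁻¹) ^ j) := by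
    intro x
    rw [Polynomial.eval_eq_sum_range' hG, Finset.sum_mul]
    exact Finset.sum_congr rfl fun d _ => mul_assoc _ _ _
  rw [Finset.sum_congr rfl fun x _ => h1 x, Finset.sum_comm]
  have h2 : ∀ d ∈ Finset.range (r - 1), ∑ x ∈ Finset.Ico 1 r,
      G.coeff d * (((x : ℕ) : ZMod r) ^ d * (((x : ℕ) : ZMod r)⁻¹) ^ j) =
      if j = d then -G.coeff d else 0 := by
    intro d hd
    rw [← Finset.mul_sum, fourier_orth d j (Finset.mem_range.mp hd) hj]
    by_cases hdj : d = j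
    · rw [if_pos hdj, if_pos hdj.symm, mul_neg, mul_one]
    · rw [if_neg hdj, if_neg (fun h => hdj h.symm), mul_zero]
  rw [Finset.sum_congr rfl h2, Finset.sum_ite_eq, if_pos (Finset.mem_range.mpr hj), neg_neg]

end Vale.Agent.P337
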