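import Mathlib
import Vale.Agent.Lib.P337.Alg.Bas

/-!
P337, algebra side: multiplication matrices.
-/

namespace Vale.Agent.P337

open MvPolynomial

variable {N : ℕ} {R : Type} [CommRing R]

theorem mmat_C {d : ℕ} (hd : 1 ≤ d) {H : Fin N → MvPolynomial (Fin N) R}
    (hH : ∀ i, (H i).totalDegree < d) (c : R) :
    mmat hd hH (C c) = Matrix.scalar _ c := by
  have h1 : (C c : MvPolynomial (Fin N) R) = algebraMap R _ c := rfl
  rw [mmat, h1, AlgHom.commutes, AlgHom.commutes]
  rfl

/-- polynomials in `g` -/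
theorem mmat_aeval {d : ℕ} (hd : 1 ≤ d) {H : Fin N → MvPolynomial (Fin N) R}
    (hH : ∀ i, (H i).totalDegree < d) (g : MvPolynomial (Fin N) R) (P : Polynomial R) :
    mmat hd hH (Polynomial.aeval g P) = Polynomial.aeval (mmat hd hH g) P := by
  have h1 : ∀ x, mmat hd hH x = ((Algebra.leftMulMatrix (bas hd hH)).comp (qmk d H)) x :=
    fun _ => rfl
  rw [h1, h1, ← Polynomial.aeval_algHom_apply]

/-- abstract version of base change -/
theorem leftMulMatrix_map_aux {R' A A' ι : Type} [CommRing R'] [CommRing A] [CommRing A']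
    [Algebra R A] [Algebra R' A'] [Fintype ι] [DecidableEq ι] (φ : R →+* R')
    (b : Module.Basis ι R A) (b' : Module.Basis ι R' A') (Φ : A →+* A')
    (hΦ : ∀ r : R, Φ (algebraMap R A r) = algebraMap R' A' (φ r)) (hb : ∀ i, Φ (b i) = b' i)
    (x : A) : Algebra.leftMulMatrix b' (Φ x) = (Algebra.leftMulMatrix b x).map φ := by
  ext i j
  rw [Matrix.map_apply, Algebra.leftMulMatrix_eq_repr_mul, Algebra.leftMulMatrix_eq_repr_mul]
  have h1 : x * b j = ∑ k, (b.repr (x * b j) k) • b k := (b.sum_repr _).symm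
  have h2 : Φ x * b' j = ∑ k, φ (b.repr (x * b j) k) • b' k := by
    rw [← hb, ← map_mul]
    conv_lhs => rw [h1]
    rw [map_sum]
    refine Finset.sum_congr rfl fun k _ => ?_
    rw [Algebra.smul_def, map_mul, hΦ, hb, ← Algebra.smul_def]
  rw [h2, map_sum, Finsupp.finsetSum_apply, Finset.sum_eq_single i]
  · rw [map_smul, Module.Basis.repr_self, Finsupp.smul_apply, Finsupp.single_eq_same, smul_eq_mul,
      mul_one]
  · intro k _ hk
    rw [map_smul, Module.Basis.repr_self, Finsupp.smul_apply,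
      Finsupp.single_eq_of_ne hk.symm, smul_zero]
  · intro h
    exact absurd (Finset.mem_univ i) h

/-- base change -/
theorem mmat_map {R' : Type} [CommRing R'] (φ : R →+* R') {d : ℕ} (hd : 1 ≤ d)
    {H : Fin N → MvPolynomial (Fin N) R} (hH : ∀ i, (H i).totalDegree < d)
    (hH' : ∀ i, (map φ (H i)).totalDegree < d) (g : MvPolynomial (Fin N) R) :
    mmat hd hH' (map φ g) = (mmat hd hH g).map φ := by
  have hle : Ideal.span (Set.range (Fs d H)) ≤
      (Ideal.span (Set.range (Fs d fun i => map φ (H i)))).comap (map φ : MvPolynomial (Fin N) R →+* _) := by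
    rw [Ideal.span_le]
    rintro _ ⟨i, rfl⟩
    have h1 : map φ (Fs d H i) = Fs d (fun i => map φ (H i)) i := by
      simp [Fs]
    show map φ (Fs d H i) ∈ Ideal.span (Set.range (Fs d fun i => map φ (H i)))
    rw [h1]
    exact Ideal.subset_span ⟨i, rfl⟩
  let Φ : QA d H →+* QA d (fun i => map φ (H i)) := Ideal.quotientMap _ (map φ) hle
  have hΦ : ∀ x, Φ (qmk d H x) = qmk d (fun i => map φ (H i)) (map φ x) := fun x =>
    Ideal.quotientMap_mk
  have h2 := leftMulMatrix_map_aux φ (bas hd hH) (bas hd hH') Φ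
    (by
      intro r
      have h3 : algebraMap R (QA d H) r = qmk d H (C r) := rfl
      rw [h3, hΦ, map_C]
      rfl)
    (by
      intro a
      rw [bas_apply, bas_apply, hΦ]
      congr 1
      simp [mon])
    (qmk d H g)
  rw [hΦ] at h2
  exact h2

/-- the evaluation at a common zero -/
theorem exists_evalHom {d : ℕ} {H : Fin N → MvPolynomial (Fin N) R} (ξ : Fin N → R)
    (hξ : ∀ i, eval ξ (Fs d H i) = 0) :
    ∃ e : QA d H →ₐ[R] R, ∀ x, e (qmk d H x) = eval ξ x := by
  have h1 : ∀ a ∈ Ideal.span (Set.range (Fs d H)), (aeval ξ : MvPolynomial (Fin N) R →ₐ[R] R) a = 0 := by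
    intro a ha
    have h2 : Ideal.span (Set.range (Fs d H)) ≤
        RingHom.ker (aeval ξ : MvPolynomial (Fin N) R →ₐ[R] R) := by
      rw [Ideal.span_le]
      rintro _ ⟨i, rfl⟩
      show (aeval ξ : MvPolynomial (Fin N) R →ₐ[R] R) (Fs d H i) = 0
      exact hξ i
    exact h2 ha
  refine ⟨Ideal.Quotient.liftₐ _ (aeval ξ) h1, fun x => ?_⟩
  rfl

/-- abstract version: an algebra homomorphism to the base ring gives an eigenvalue -/
theorem eigen_aux {A ι : Type} [CommRing A] [Algebra R A] [IsDomain R] [Fintype ι] [DecidableEq ι]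
    (b : Module.Basis ι R A) (e : A →ₐ[R] R) (x : A) :
    (Algebra.leftMulMatrix b x).charpoly.eval (e x) = 0 := by
  rw [Matrix.eval_charpoly, ← Matrix.exists_vecMul_eq_zero_iff]
  refine ⟨fun i => e (b i), ?_, ?_⟩
  · intro h0
    have h1 : e 1 = 0 := by
      rw [← b.sum_repr 1, map_sum]
      refine Finset.sum_eq_zero fun i _ => ?_
      rw [map_smul]
      have := congrFun h0 i
      simp only [Pi.zero_apply] at this
      rw [this, smul_zero]
    rw [map_one] at h1
    exact one_ne_zero h1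
  · have h2 : Matrix.vecMul (fun i => e (b i)) (Algebra.leftMulMatrix b x) =
        fun j => e x * e (b j) := by
      funext j
      rw [← map_mul]
      conv_rhs => rw [← b.sum_repr (x * b j), map_sum]
      simp only [Matrix.vecMul, dotProduct, map_smul, smul_eq_mul,
        Algebra.leftMulMatrix_eq_repr_mul]
      refine Finset.sum_congr rfl fun i _ => mul_comm _ _
    rw [Matrix.vecMul_sub, h2]
    funext j
    simp [Matrix.scalar_apply]

/-- a common zero gives an eigenvalue -/
theorem mmat_eigen {d : ℕ} (hd : 1 ≤ d) {H : Fin N → MvPolynomial (Fin N) R}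
    (hH : ∀ i, (H i).totalDegree < d) [IsDomain R] (g : MvPolynomial (Fin N) R) (ξ : Fin N → R)
    (hξ : ∀ i, eval ξ (Fs d H i) = 0) : (mmat hd hH g).charpoly.eval (eval ξ g) = 0 := by
  obtain ⟨e, he⟩ := exists_evalHom ξ hξ
  rw [← he g]
  exact eigen_aux (bas hd hH) e (qmk d H g)

end Vale.Agent.P337
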