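import Mathlib
import Vale.Agent.Lib.P337.Alg.Expc
import Vale.Agent.Lib.P337.Alg.CharNewton

/-!
P337, algebra side: characteristic polynomial from power sums by the exponential formula.
-/

namespace Vale.Agent.P337

theorem newtonExp_zero {K : Type} [Field K] (D : ℕ) (S : ℕ → K) : expc D S 0 = 1 := by
  simp [expc]

theorem newtonExp_aux {K n : Type} [Field K] [Fintype n] [DecidableEq n] (M : Matrix n n K)
    (hK : ∀ i ∈ Finset.Ico 1 (Fintype.card n + 1), (i : K) ≠ 0) (j : ℕ) :
    j ≤ Fintype.card n → (-1) ^ j * M.charpoly.coeff (Fintype.card n - j) =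
      expc (Fintype.card n) (fun i => (M ^ i).trace) j := by
  induction j using Nat.strong_induction_on with
  | _ j ih =>
    intro hj
    rcases Nat.eq_zero_or_pos j with h0 | h1
    · subst h0
      rw [newtonExp_zero, pow_zero, one_mul, Nat.sub_zero]
      have h2 := M.charpoly_monic
      rw [Polynomial.Monic, Polynomial.leadingCoeff, M.charpoly_natDegree_eq_dim] at h2
      exact h2
    · have hjK : (j : K) ≠ 0 := hK j (Finset.mem_Ico.2 ⟨h1, by omega⟩)
      apply mul_left_cancel₀ hjK
      rw [charpoly_newton M h1 hj, expc_newton hK _ h1 hj]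
      refine Finset.sum_congr rfl fun i hi => ?_
      rw [Finset.mem_Ico] at hi
      rw [ih (j - i) (by omega) (by omega)]

theorem charpoly_coeff_exp {K n : Type} [Field K] [Fintype n] [DecidableEq n] (M : Matrix n n K)
    (hK : ∀ i ∈ Finset.Ico 1 (Fintype.card n + 1), (i : K) ≠ 0) {j : ℕ}
    (hj : j ≤ Fintype.card n) :
    M.charpoly.coeff (Fintype.card n - j) =
      (-1) ^ j * expc (Fintype.card n) (fun i => (M ^ i).trace) j := by
  rw [← newtonExp_aux M hK j hj, ← mul_assoc, ← mul_pow]
  simp

theorem det_exp {K n : Type} [Field K] [Fintype n] [DecidableEq n] (M : Matrix n n K)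
    (hK : ∀ i ∈ Finset.Ico 1 (Fintype.card n + 1), (i : K) ≠ 0) :
    M.det = expc (Fintype.card n) (fun i => (M ^ i).trace) (Fintype.card n) := by
  rw [← newtonExp_aux M hK _ le_rfl, Nat.sub_self]
  exact M.det_eq_sign_charpoly_coeff

end Vale.Agent.P337
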