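import Mathlib
import Vale.Agent.Lib.P337.Alg.Basic

/-!
P337, algebra side: norms on rings and polynomial rings.
-/

namespace Vale.Agent.P337

open MvPolynomial

/-- submultiplicative norms on rings -/
structure IsNrm {R : Type} [CommRing R] (ν : R → ℝ) : Prop where
  nonneg : ∀ a, 0 ≤ ν a
  zero : ν 0 = 0
  one : ν 1 ≤ 1
  neg : ∀ a, ν (-a) = ν a
  add_le : ∀ a b, ν (a + b) ≤ ν a + ν b
  mul_le : ∀ a b, ν (a * b) ≤ ν a * ν b

theorem isNrm_int : IsNrm (fun a : ℤ => |(a : ℝ)|) where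
  nonneg a := abs_nonneg _
  zero := by simp
  one := by simp
  neg a := by simp
  add_le a b := by
    push_cast
    exact abs_add_le _ _
  mul_le a b := by
    push_cast
    rw [abs_mul]

theorem isNrm_real : IsNrm (fun a : ℝ => |a|) where
  nonneg a := abs_nonneg _
  zero := by simp
  one := by simp
  neg a := by simp
  add_le a b := abs_add_le _ _
  mul_le a b := by rw [abs_mul]

theorem isNrm_complex : IsNrm (fun a : ℂ => ‖a‖) where
  nonneg a := norm_nonneg _
  zero := by simp
  one := by simp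
  neg a := by simp
  add_le a b := norm_add_le _ _
  mul_le a b := by rw [norm_mul]

/-! ### general facts -/

private theorem nrm_sum_le {R : Type} [CommRing R] {ν : R → ℝ} (h0 : ν 0 = 0)
    (hadd : ∀ a b, ν (a + b) ≤ ν a + ν b) {ι : Type} (s : Finset ι) (g : ι → R) :
    ν (∑ i ∈ s, g i) ≤ ∑ i ∈ s, ν (g i) := by
  classical
  induction s using Finset.induction_on with
  | empty => simp [h0]
  | insert i s hi ih =>
    rw [Finset.sum_insert hi, Finset.sum_insert hi]
    exact (hadd _ _).trans (add_le_add le_rfl ih)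

private theorem nrm_prod_le {R : Type} [CommRing R] {ν : R → ℝ} (hν : IsNrm ν) {ι : Type}
    (s : Finset ι) (g : ι → R) : ν (∏ i ∈ s, g i) ≤ ∏ i ∈ s, ν (g i) := by
  classical
  induction s using Finset.induction_on with
  | empty => simpa using hν.one
  | insert i s hi ih =>
    rw [Finset.prod_insert hi, Finset.prod_insert hi]
    exact (hν.mul_le _ _).trans (mul_le_mul_of_nonneg_left ih (hν.nonneg _))

/-- the `ℓ^1` norm of a polynomial, with weight `u` for the variable -/
noncomputable def pnorm {R : Type} [CommRing R] (ν : R → ℝ) (u : ℝ) (G : Polynomial R) : ℝ :=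
  ∑ i ∈ G.support, ν (G.coeff i) * u ^ i

private theorem pnorm_eq {R : Type} [CommRing R] {ν : R → ℝ} (h0 : ν 0 = 0) (u : ℝ)
    {G : Polynomial R} {s : Finset ℕ} (hs : G.support ⊆ s) :
    pnorm ν u G = ∑ i ∈ s, ν (G.coeff i) * u ^ i := by
  unfold pnorm
  apply Finset.sum_subset hs
  intro i _ hi
  rw [Polynomial.notMem_support_iff.1 hi, h0, zero_mul]

private theorem pnorm_nonneg' {R : Type} [CommRing R] {ν : R → ℝ} (hν : IsNrm ν) {u : ℝ}
    (hu : 0 ≤ u) (G : Polynomial R) : 0 ≤ pnorm ν u G :=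
  Finset.sum_nonneg fun i _ => mul_nonneg (hν.nonneg _) (pow_nonneg hu i)

private theorem pnorm_zero' {R : Type} [CommRing R] (ν : R → ℝ) (u : ℝ) :
    pnorm ν u (0 : Polynomial R) = 0 := by
  simp [pnorm]

private theorem pnorm_add_le' {R : Type} [CommRing R] {ν : R → ℝ} (hν : IsNrm ν) {u : ℝ}
    (hu : 0 ≤ u) (G H : Polynomial R) : pnorm ν u (G + H) ≤ pnorm ν u G + pnorm ν u H := by
  classical
  rw [pnorm_eq hν.zero u (G := G + H) (s := G.support ∪ H.support) Polynomial.support_add,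
    pnorm_eq hν.zero u (G := G) (s := G.support ∪ H.support) Finset.subset_union_left,
    pnorm_eq hν.zero u (G := H) (s := G.support ∪ H.support) Finset.subset_union_right,
    ← Finset.sum_add_distrib]
  apply Finset.sum_le_sum
  intro i _
  rw [Polynomial.coeff_add, ← add_mul]
  exact mul_le_mul_of_nonneg_right (hν.add_le _ _) (pow_nonneg hu i)

private theorem pnorm_monomial_le' {R : Type} [CommRing R] {ν : R → ℝ} (hν : IsNrm ν) {u : ℝ}
    (n : ℕ) (c : R) : pnorm ν u (Polynomial.monomial n c) ≤ ν c * u ^ n := by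
  rw [pnorm_eq hν.zero u (Polynomial.support_monomial_subset n c), Finset.sum_singleton,
    Polynomial.coeff_monomial_same]

theorem isNrm_pnorm {R : Type} [CommRing R] {ν : R → ℝ} (hν : IsNrm ν) {u : ℝ} (hu : 0 ≤ u) :
    IsNrm (pnorm ν u) where
  nonneg := pnorm_nonneg' hν hu
  zero := pnorm_zero' ν u
  one := by
    have h1 := pnorm_monomial_le' hν (u := u) 0 (1 : R)
    rw [Polynomial.monomial_zero_one, pow_zero, mul_one] at h1
    exact h1.trans hν.one
  neg G := by
    unfold pnorm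
    rw [Polynomial.support_neg]
    apply Finset.sum_congr rfl
    intro i _
    rw [Polynomial.coeff_neg, hν.neg]
  add_le := pnorm_add_le' hν hu
  mul_le G H := by
    have h1 : G * H = ∑ i ∈ G.support, ∑ j ∈ H.support,
        Polynomial.monomial (i + j) (G.coeff i * H.coeff j) := by
      conv_lhs => rw [G.as_sum_support, H.as_sum_support]
      rw [Finset.sum_mul_sum]
      apply Finset.sum_congr rfl
      intro i _
      apply Finset.sum_congr rfl
      intro j _
      rw [Polynomial.monomial_mul_monomial]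
    rw [h1]
    refine (nrm_sum_le (pnorm_zero' ν u) (pnorm_add_le' hν hu) _ _).trans ?_
    unfold pnorm
    rw [Finset.sum_mul_sum]
    apply Finset.sum_le_sum
    intro i _
    refine (nrm_sum_le (pnorm_zero' ν u) (pnorm_add_le' hν hu) _ _).trans ?_
    apply Finset.sum_le_sum
    intro j _
    refine (pnorm_monomial_le' hν _ _).trans ?_
    calc ν (G.coeff i * H.coeff j) * u ^ (i + j)
        ≤ (ν (G.coeff i) * ν (H.coeff j)) * u ^ (i + j) :=
          mul_le_mul_of_nonneg_right (hν.mul_le _ _) (pow_nonneg hu _)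
      _ = ν (G.coeff i) * u ^ i * (ν (H.coeff j) * u ^ j) := by
          rw [pow_add]
          ring

variable {N : ℕ} {R : Type} [CommRing R]

/-- weighted `ℓ^1` norm -/
noncomputable def wnorm (ν : R → ℝ) (t : ℝ) (h : MvPolynomial (Fin N) R) : ℝ :=
  ∑ m ∈ h.support, ν (coeff m h) * t ^ m.degree

private theorem wnorm_eq {ν : R → ℝ} (h0 : ν 0 = 0) (t : ℝ)
    {h : MvPolynomial (Fin N) R} {s : Finset (Fin N →₀ ℕ)} (hs : h.support ⊆ s) :
    wnorm ν t h = ∑ m ∈ s, ν (coeff m h) * t ^ m.degree := by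
  unfold wnorm
  apply Finset.sum_subset hs
  intro m _ hm
  rw [MvPolynomial.notMem_support_iff.1 hm, h0, zero_mul]

theorem wnorm_nonneg {ν : R → ℝ} (hν : IsNrm ν) {t : ℝ} (ht : 0 ≤ t)
    (h : MvPolynomial (Fin N) R) : 0 ≤ wnorm ν t h :=
  Finset.sum_nonneg fun _ _ => mul_nonneg (hν.nonneg _) (pow_nonneg ht _)

theorem wnorm_add_le {ν : R → ℝ} (hν : IsNrm ν) {t : ℝ} (ht : 0 ≤ t)
    (g h : MvPolynomial (Fin N) R) : wnorm ν t (g + h) ≤ wnorm ν t g + wnorm ν t h := by
  classical
  rw [wnorm_eq hν.zero t (h := g + h) (s := g.support ∪ h.support) MvPolynomial.support_add,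
    wnorm_eq hν.zero t (h := g) (s := g.support ∪ h.support) Finset.subset_union_left,
    wnorm_eq hν.zero t (h := h) (s := g.support ∪ h.support) Finset.subset_union_right,
    ← Finset.sum_add_distrib]
  apply Finset.sum_le_sum
  intro m _
  rw [MvPolynomial.coeff_add, ← add_mul]
  exact mul_le_mul_of_nonneg_right (hν.add_le _ _) (pow_nonneg ht _)

theorem wnorm_neg {ν : R → ℝ} (hν : IsNrm ν) (t : ℝ)
    (h : MvPolynomial (Fin N) R) : wnorm ν t (-h) = wnorm ν t h := by
  unfold wnorm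
  rw [MvPolynomial.support_neg]
  apply Finset.sum_congr rfl
  intro m _
  rw [MvPolynomial.coeff_neg, hν.neg]

private theorem wnorm_zero' (ν : R → ℝ) (t : ℝ) : wnorm ν t (0 : MvPolynomial (Fin N) R) = 0 := by
  simp [wnorm]

theorem wnorm_monomial_le {ν : R → ℝ} (hν : IsNrm ν) {t : ℝ} (ht : 0 ≤ t) (m : Fin N →₀ ℕ)
    (c : R) : wnorm ν t (monomial m c) ≤ ν c * t ^ m.degree := by
  rw [wnorm_eq hν.zero t (s := {m}) MvPolynomial.support_monomial_subset, Finset.sum_singleton,
    MvPolynomial.coeff_monomial, if_pos rfl]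

theorem wnorm_sum_le {ν : R → ℝ} (hν : IsNrm ν) {t : ℝ} (ht : 0 ≤ t) {ι : Type} (s : Finset ι)
    (g : ι → MvPolynomial (Fin N) R) : wnorm ν t (∑ i ∈ s, g i) ≤ ∑ i ∈ s, wnorm ν t (g i) :=
  nrm_sum_le (wnorm_zero' ν t) (wnorm_add_le hν ht) s g

theorem wnorm_mul_le {ν : R → ℝ} (hν : IsNrm ν) {t : ℝ} (ht : 0 ≤ t)
    (g h : MvPolynomial (Fin N) R) : wnorm ν t (g * h) ≤ wnorm ν t g * wnorm ν t h := by
  have h1 : g * h = ∑ m ∈ g.support, ∑ n ∈ h.support,
      monomial (m + n) (coeff m g * coeff n h) := by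
    conv_lhs => rw [g.as_sum, h.as_sum]
    rw [Finset.sum_mul_sum]
    apply Finset.sum_congr rfl
    intro m _
    apply Finset.sum_congr rfl
    intro n _
    rw [MvPolynomial.monomial_mul]
  rw [h1]
  refine (wnorm_sum_le hν ht _ _).trans ?_
  unfold wnorm
  rw [Finset.sum_mul_sum]
  apply Finset.sum_le_sum
  intro m _
  refine (wnorm_sum_le hν ht _ _).trans ?_
  apply Finset.sum_le_sum
  intro n _
  refine (wnorm_monomial_le hν ht _ _).trans ?_
  calc ν (coeff m g * coeff n h) * t ^ (m + n).degree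
      ≤ (ν (coeff m g) * ν (coeff n h)) * t ^ (m + n).degree :=
        mul_le_mul_of_nonneg_right (hν.mul_le _ _) (pow_nonneg ht _)
    _ = ν (coeff m g) * t ^ m.degree * (ν (coeff n h) * t ^ n.degree) := by
        rw [map_add, pow_add]
        ring

/-- the determinant is bounded by weighted column sums -/
theorem det_le_prod {n : Type} [Fintype n] [DecidableEq n] {ν : R → ℝ} (hν : IsNrm ν)
    (M : Matrix n n R) (τ : n → ℝ) (hτ : ∀ a, 0 < τ a) :
    ν M.det ≤ ∏ b, ∑ a, ν (M a b) * τ a / τ b := by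
  have h0 : ∀ f : n → n, 0 ≤ ∏ b, ν (M (f b) b) * τ (f b) / τ b := fun f =>
    Finset.prod_nonneg fun b _ => div_nonneg (mul_nonneg (hν.nonneg _) (hτ _).le) (hτ _).le
  have h1 : ∀ σ : Equiv.Perm n, ν (Equiv.Perm.sign σ • ∏ b, M (σ b) b) ≤
      ∏ b, ν (M (σ b) b) * τ (σ b) / τ b := by
    intro σ
    have h2 : ν (Equiv.Perm.sign σ • ∏ b, M (σ b) b) = ν (∏ b, M (σ b) b) := by
      rcases Int.units_eq_one_or (Equiv.Perm.sign σ) with h | h
      · rw [h, one_smul]
      · rw [h, Units.neg_smul, one_smul, hν.neg]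
    rw [h2]
    refine (nrm_prod_le hν _ _).trans (le_of_eq ?_)
    have h3 : ∏ b, τ (σ b) = ∏ b, τ b := Equiv.prod_comp σ τ
    have h4 : ∏ b, τ b ≠ 0 := Finset.prod_ne_zero_iff.2 fun b _ => (hτ b).ne'
    rw [Finset.prod_div_distrib, Finset.prod_mul_distrib, h3, mul_div_assoc, div_self h4, mul_one]
  rw [Matrix.det_apply]
  refine (nrm_sum_le hν.zero hν.add_le _ _).trans ?_
  refine (Finset.sum_le_sum fun σ _ => h1 σ).trans ?_
  rw [Finset.prod_univ_sum]
  have h5 : ∑ σ : Equiv.Perm n, ∏ b, ν (M (σ b) b) * τ (σ b) / τ b =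
      ∑ f ∈ (Finset.univ : Finset (Equiv.Perm n)).map
        (⟨fun σ => (σ : n → n), DFunLike.coe_injective⟩ : Equiv.Perm n ↪ (n → n)),
          ∏ b, ν (M (f b) b) * τ (f b) / τ b := by
    rw [Finset.sum_map]
    rfl
  rw [h5]
  apply Finset.sum_le_sum_of_subset_of_nonneg
  · intro f _
    rw [Fintype.mem_piFinset]
    intro a
    exact Finset.mem_univ _
  · intro f _ _
    exact h0 f

end Vale.Agent.P337
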