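import Mathlib
import Vale.Agent.Lib.P337.Alg.Nrm
import Vale.Agent.Lib.P337.Alg.Bas

/-!
P337, algebra side: column sums of the multiplication matrices.
-/

namespace Vale.Agent.P337

open MvPolynomial

variable {N : ℕ} {R : Type} [CommRing R]

/-- weighted norm of the coordinates in the monomial basis -/
noncomputable def nmKap (ν : R → ℝ) (t : ℝ) {d : ℕ} (hd : 1 ≤ d)
    {H : Fin N → MvPolynomial (Fin N) R} (hH : ∀ i, (H i).totalDegree < d) (q : QA d H) : ℝ :=
  ∑ a : Fin N → Fin d, ν ((bas hd hH).repr q a) * t ^ (∑ i, (a i : ℕ))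

theorem nmKap_zero {ν : R → ℝ} (hν : IsNrm ν) (t : ℝ) {d : ℕ} (hd : 1 ≤ d)
    {H : Fin N → MvPolynomial (Fin N) R} (hH : ∀ i, (H i).totalDegree < d) :
    nmKap ν t hd hH 0 = 0 := by
  simp [nmKap, hν.zero]

theorem nmKap_add_le {ν : R → ℝ} (hν : IsNrm ν) {t : ℝ} (ht : 0 ≤ t) {d : ℕ} (hd : 1 ≤ d)
    {H : Fin N → MvPolynomial (Fin N) R} (hH : ∀ i, (H i).totalDegree < d) (p q : QA d H) :
    nmKap ν t hd hH (p + q) ≤ nmKap ν t hd hH p + nmKap ν t hd hH q := by
  unfold nmKap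
  rw [← Finset.sum_add_distrib]
  apply Finset.sum_le_sum
  intro a _
  rw [map_add, Finsupp.add_apply, ← add_mul]
  exact mul_le_mul_of_nonneg_right (hν.add_le _ _) (pow_nonneg ht _)

theorem nmKap_smul_le {ν : R → ℝ} (hν : IsNrm ν) {t : ℝ} (ht : 0 ≤ t) {d : ℕ} (hd : 1 ≤ d)
    {H : Fin N → MvPolynomial (Fin N) R} (hH : ∀ i, (H i).totalDegree < d) (c : R) (q : QA d H) :
    nmKap ν t hd hH (c • q) ≤ ν c * nmKap ν t hd hH q := by
  unfold nmKap
  rw [Finset.mul_sum]
  apply Finset.sum_le_sum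
  intro a _
  rw [map_smul, Finsupp.smul_apply, ← mul_assoc, smul_eq_mul]
  exact mul_le_mul_of_nonneg_right (hν.mul_le _ _) (pow_nonneg ht _)

theorem nmKap_sum_le {ν : R → ℝ} (hν : IsNrm ν) {t : ℝ} (ht : 0 ≤ t) {d : ℕ} (hd : 1 ≤ d)
    {H : Fin N → MvPolynomial (Fin N) R} (hH : ∀ i, (H i).totalDegree < d) {ι : Type}
    (s : Finset ι) (q : ι → QA d H) :
    nmKap ν t hd hH (∑ i ∈ s, q i) ≤ ∑ i ∈ s, nmKap ν t hd hH (q i) := by
  classical
  induction s using Finset.induction_on with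
  | empty => simp [nmKap_zero hν]
  | insert i s hi ih =>
    rw [Finset.sum_insert hi, Finset.sum_insert hi]
    exact (nmKap_add_le hν ht hd hH _ _).trans (by linarith)

theorem nmKap_bas_le {ν : R → ℝ} (hν : IsNrm ν) {t : ℝ} (ht : 0 ≤ t) {d : ℕ} (hd : 1 ≤ d)
    {H : Fin N → MvPolynomial (Fin N) R} (hH : ∀ i, (H i).totalDegree < d)
    (b : Fin N → Fin d) : nmKap ν t hd hH (bas hd hH b) ≤ t ^ (∑ i, (b i : ℕ)) := by
  classical
  unfold nmKap
  rw [Finset.sum_eq_single b]
  · rw [Module.Basis.repr_self, Finsupp.single_eq_same]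
    calc ν 1 * t ^ (∑ i, (b i : ℕ)) ≤ 1 * t ^ (∑ i, (b i : ℕ)) :=
          mul_le_mul_of_nonneg_right hν.one (pow_nonneg ht _)
      _ = _ := one_mul _
  · intro a _ hab
    rw [Module.Basis.repr_self, Finsupp.single_eq_of_ne hab, hν.zero, zero_mul]
  · simp

/-- the exponent of a basis monomial -/
theorem nm_mon_eq (d : ℕ) (a : Fin N → Fin d) :
    (mon d a : MvPolynomial (Fin N) R) =
      monomial (Finsupp.equivFunOnFinite.symm fun i => (a i : ℕ)) 1 := by
  unfold mon
  rw [MvPolynomial.monomial_eq, map_one, one_mul, Finsupp.prod_fintype _ _ (by simp)]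
  simp

theorem nm_degree (m : Fin N →₀ ℕ) : m.degree = ∑ i, m i := by
  rw [Finsupp.degree_eq_sum]

/-- linearity: `g * x ^ m'` -/
theorem nmKap_mul_monomial_le {ν : R → ℝ} (hν : IsNrm ν) {t : ℝ} (ht : 0 ≤ t) {d : ℕ} (hd : 1 ≤ d)
    {H : Fin N → MvPolynomial (Fin N) R} (hH : ∀ i, (H i).totalDegree < d)
    (g : MvPolynomial (Fin N) R) (m' : Fin N →₀ ℕ) :
    nmKap ν t hd hH (qmk d H (g * monomial m' 1)) ≤
      ∑ m ∈ g.support, ν (coeff m g) * nmKap ν t hd hH (qmk d H (monomial (m + m') 1)) := by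
  have h1 : g * monomial m' 1 = ∑ m ∈ g.support, coeff m g • monomial (m + m') 1 := by
    conv_lhs => rw [g.as_sum, Finset.sum_mul]
    apply Finset.sum_congr rfl
    intro m _
    rw [monomial_mul, mul_one, smul_monomial, smul_eq_mul, mul_one]
  rw [h1, map_sum]
  refine (nmKap_sum_le hν ht hd hH _ _).trans (Finset.sum_le_sum fun m _ => ?_)
  rw [map_smul]
  exact nmKap_smul_le hν ht hd hH _ _

/-- the relation `X_i ^ d = H_i` -/
theorem nm_rel {d : ℕ} {H : Fin N → MvPolynomial (Fin N) R} (i : Fin N) :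
    qmk d H (X i ^ d) = qmk d H (H i) := by
  rw [← sub_eq_zero, ← map_sub]
  change Ideal.Quotient.mk _ (X i ^ d - H i) = 0
  rw [Ideal.Quotient.eq_zero_iff_mem]
  exact Ideal.subset_span ⟨i, rfl⟩

theorem nmKap_monomial_le {ν : R → ℝ} (hν : IsNrm ν) {t : ℝ} (ht : 1 ≤ t) {d : ℕ} (hd : 1 ≤ d)
    {H : Fin N → MvPolynomial (Fin N) R} (hH : ∀ i, (H i).totalDegree < d)
    (hw : ∀ i, wnorm ν t (H i) ≤ t ^ d) (n : ℕ) : ∀ m : Fin N →₀ ℕ, m.degree = n →
    nmKap ν t hd hH (qmk d H (monomial m 1)) ≤ t ^ m.degree := by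
  have ht0 : (0 : ℝ) ≤ t := le_trans zero_le_one ht
  induction n using Nat.strong_induction_on with
  | _ n ih =>
    intro m hm
    by_cases hall : ∀ i, m i < d
    · have h1 : (monomial m 1 : MvPolynomial (Fin N) R) = mon d (fun i => ⟨m i, hall i⟩) := by
        rw [nm_mon_eq]
        congr 1
        ext i
        simp
      rw [h1, ← bas_apply hd hH, nm_degree]
      exact nmKap_bas_le hν ht0 hd hH _
    · push Not at hall
      obtain ⟨i, hi⟩ := hall
      set m' : Fin N →₀ ℕ := m - Finsupp.single i d with hm'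
      have hmm : m = Finsupp.single i d + m' := by
        rw [hm', add_tsub_cancel_of_le]
        rw [Finsupp.single_le_iff]
        exact hi
      have h1 : (monomial m 1 : MvPolynomial (Fin N) R) = X i ^ d * monomial m' 1 := by
        rw [X_pow_eq_monomial, monomial_mul, ← hmm, mul_one]
      have hdeg : m.degree = d + m'.degree := by
        conv_lhs => rw [hmm]
        rw [map_add, Finsupp.degree_single]
      rw [h1, map_mul, nm_rel, ← map_mul]
      refine (nmKap_mul_monomial_le hν ht0 hd hH (H i) m').trans ?_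
      have h2 : ∀ m'' ∈ (H i).support,
          ν (coeff m'' (H i)) * nmKap ν t hd hH (qmk d H (monomial (m'' + m') 1)) ≤
            ν (coeff m'' (H i)) * t ^ m''.degree * t ^ m'.degree := by
        intro m'' hm''
        have h3 : m''.degree < d := lt_of_le_of_lt (by
          rw [nm_degree]
          have := le_totalDegree hm''
          rwa [Finsupp.sum_fintype _ _ (by simp)] at this) (hH i)
        have h4 := ih (m'' + m').degree (by rw [map_add, ← hm, hdeg]; omega) (m'' + m') rfl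
        rw [mul_assoc]
        apply mul_le_mul_of_nonneg_left _ (hν.nonneg _)
        rw [map_add, pow_add] at h4
        exact h4
      refine (Finset.sum_le_sum h2).trans ?_
      rw [← Finset.sum_mul, hdeg, pow_add]
      exact mul_le_mul_of_nonneg_right (hw i) (pow_nonneg ht0 _)

/-- the multiplication matrix has weighted column sums at most the weighted norm -/
theorem mmat_col_le {ν : R → ℝ} (hν : IsNrm ν) {t : ℝ} (ht : 1 ≤ t) {d : ℕ} (hd : 1 ≤ d)
    {H : Fin N → MvPolynomial (Fin N) R} (hH : ∀ i, (H i).totalDegree < d)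
    (hw : ∀ i, wnorm ν t (H i) ≤ t ^ d) (h : MvPolynomial (Fin N) R) (b : Fin N → Fin d) :
    ∑ a : Fin N → Fin d, ν (mmat hd hH h a b) * t ^ (∑ i, (a i : ℕ)) / t ^ (∑ i, (b i : ℕ)) ≤
      wnorm ν t h := by
  have ht0 : (0 : ℝ) ≤ t := le_trans zero_le_one ht
  have hpos : (0 : ℝ) < t ^ (∑ i, (b i : ℕ)) := pow_pos (lt_of_lt_of_le zero_lt_one ht) _
  rw [← Finset.sum_div, div_le_iff₀ hpos]
  have h1 : ∑ a : Fin N → Fin d, ν (mmat hd hH h a b) * t ^ (∑ i, (a i : ℕ)) =
      nmKap ν t hd hH (qmk d H (h * mon d b)) := by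
    unfold nmKap
    apply Finset.sum_congr rfl
    intro a _
    rw [mmat, Algebra.leftMulMatrix_eq_repr_mul, bas_apply, ← map_mul]
  rw [h1, nm_mon_eq]
  refine (nmKap_mul_monomial_le hν ht0 hd hH h _).trans ?_
  unfold wnorm
  rw [Finset.sum_mul]
  apply Finset.sum_le_sum
  intro m _
  rw [mul_assoc]
  apply mul_le_mul_of_nonneg_left _ (hν.nonneg _)
  have h2 := nmKap_monomial_le hν ht hd hH hw _
    (m + Finsupp.equivFunOnFinite.symm fun i => (b i : ℕ)) rfl
  rw [map_add, pow_add] at h2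
  have h3 : (Finsupp.equivFunOnFinite.symm fun i => (b i : ℕ) : Fin N →₀ ℕ).degree =
      ∑ i, (b i : ℕ) := by
    rw [nm_degree]
    simp
  rw [h3] at h2
  exact h2

end Vale.Agent.P337
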