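import Mathlib
import Vale.Agent.Lib.P337.Alg.NrmMat
import Vale.Agent.Lib.P337.Alg.Mmat

/-!
P337, algebra side: norm bounds for determinant, trace, characteristic polynomial, roots.
-/

namespace Vale.Agent.P337

open MvPolynomial

variable {N : ℕ} {R : Type} [CommRing R]

theorem nb_card (d : ℕ) : Fintype.card (Fin N → Fin d) = d ^ N := by
  simp

theorem nb_wnorm_nonneg {ν : R → ℝ} (hν : IsNrm ν) {t : ℝ} (ht : 0 ≤ t)
    (h : MvPolynomial (Fin N) R) : 0 ≤ wnorm ν t h := wnorm_nonneg hν ht h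

theorem mmat_det_le {ν : R → ℝ} (hν : IsNrm ν) {t : ℝ} (ht : 1 ≤ t) {d : ℕ} (hd : 1 ≤ d)
    {H : Fin N → MvPolynomial (Fin N) R} (hH : ∀ i, (H i).totalDegree < d)
    (hw : ∀ i, wnorm ν t (H i) ≤ t ^ d) (h : MvPolynomial (Fin N) R) :
    ν (mmat hd hH h).det ≤ wnorm ν t h ^ (d ^ N) := by
  have ht0 : (0 : ℝ) < t := lt_of_lt_of_le zero_lt_one ht
  have h1 := det_le_prod hν (mmat hd hH h) (fun a => t ^ (∑ i, (a i : ℕ)))
    (fun a => pow_pos ht0 _)
  refine h1.trans ?_
  calc ∏ b, ∑ a, ν (mmat hd hH h a b) * t ^ (∑ i, (a i : ℕ)) / t ^ (∑ i, (b i : ℕ))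
      ≤ ∏ _b : Fin N → Fin d, wnorm ν t h := by
        apply Finset.prod_le_prod
        · intro b _
          exact Finset.sum_nonneg fun a _ => by
            have := hν.nonneg (mmat hd hH h a b)
            positivity
        · intro b _
          exact mmat_col_le hν ht hd hH hw h b
    _ = wnorm ν t h ^ (d ^ N) := by
        rw [Finset.prod_const, Finset.card_univ, nb_card]

theorem nb_diag_le {ν : R → ℝ} (hν : IsNrm ν) {t : ℝ} (ht : 1 ≤ t) {d : ℕ} (hd : 1 ≤ d)
    {H : Fin N → MvPolynomial (Fin N) R} (hH : ∀ i, (H i).totalDegree < d)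
    (hw : ∀ i, wnorm ν t (H i) ≤ t ^ d) (h : MvPolynomial (Fin N) R) (b : Fin N → Fin d) :
    ν (mmat hd hH h b b) ≤ wnorm ν t h := by
  have ht0 : (0 : ℝ) < t := lt_of_lt_of_le zero_lt_one ht
  refine le_trans ?_ (mmat_col_le hν ht hd hH hw h b)
  have h1 : ν (mmat hd hH h b b) =
      ν (mmat hd hH h b b) * t ^ (∑ i, (b i : ℕ)) / t ^ (∑ i, (b i : ℕ)) := by
    field_simp
  rw [h1]
  exact Finset.single_le_sum (f := fun a : Fin N → Fin d =>
    ν (mmat hd hH h a b) * t ^ (∑ i, (a i : ℕ)) / t ^ (∑ i, (b i : ℕ)))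
    (fun a _ => by
      have := hν.nonneg (mmat hd hH h a b)
      positivity) (Finset.mem_univ b)

theorem nb_sum_le {ν : R → ℝ} (hν : IsNrm ν) {ι : Type} (s : Finset ι) (f : ι → R) :
    ν (∑ i ∈ s, f i) ≤ ∑ i ∈ s, ν (f i) := by
  classical
  induction s using Finset.induction_on with
  | empty => simp [hν.zero]
  | insert i s hi ih =>
    rw [Finset.sum_insert hi, Finset.sum_insert hi]
    exact (hν.add_le _ _).trans (by linarith)

theorem mmat_trace_le {ν : R → ℝ} (hν : IsNrm ν) {t : ℝ} (ht : 1 ≤ t) {d : ℕ} (hd : 1 ≤ d)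
    {H : Fin N → MvPolynomial (Fin N) R} (hH : ∀ i, (H i).totalDegree < d)
    (hw : ∀ i, wnorm ν t (H i) ≤ t ^ d) (h : MvPolynomial (Fin N) R) :
    ν (mmat hd hH h).trace ≤ (d ^ N : ℕ) * wnorm ν t h := by
  unfold Matrix.trace
  refine (nb_sum_le hν _ _).trans ?_
  calc ∑ b, ν ((mmat hd hH h).diag b) ≤ ∑ _b : Fin N → Fin d, wnorm ν t h :=
        Finset.sum_le_sum fun b _ => nb_diag_le hν ht hd hH hw h b
    _ = (d ^ N : ℕ) * wnorm ν t h := by
        rw [Finset.sum_const, Finset.card_univ, nb_card, nsmul_eq_mul]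

theorem nb_pnorm_C {ν : R → ℝ} (hν : IsNrm ν) {u : ℝ} (hu : 0 ≤ u) (c : R) :
    pnorm ν u (Polynomial.C c) ≤ ν c := by
  unfold pnorm
  calc ∑ i ∈ (Polynomial.C c).support, ν ((Polynomial.C c).coeff i) * u ^ i
      ≤ ∑ i ∈ {0}, ν ((Polynomial.C c).coeff i) * u ^ i := by
        apply Finset.sum_le_sum_of_subset_of_nonneg (Polynomial.support_C_subset c)
        intro i _ _
        exact mul_nonneg (hν.nonneg _) (pow_nonneg hu _)
    _ = ν c := by simp

theorem nb_pnorm_X {ν : R → ℝ} (hν : IsNrm ν) {u : ℝ} (hu : 0 ≤ u) :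
    pnorm ν u (Polynomial.X : Polynomial R) ≤ u := by
  unfold pnorm
  have hsub : (Polynomial.X : Polynomial R).support ⊆ {1} := by
    intro i hi
    rw [Polynomial.mem_support_iff, Polynomial.coeff_X] at hi
    rw [Finset.mem_singleton]
    by_contra hne
    exact hi (if_neg fun h => hne h.symm)
  calc ∑ i ∈ (Polynomial.X : Polynomial R).support, ν ((Polynomial.X : Polynomial R).coeff i) * u ^ i
      ≤ ∑ i ∈ {1}, ν ((Polynomial.X : Polynomial R).coeff i) * u ^ i := by
        apply Finset.sum_le_sum_of_subset_of_nonneg hsub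
        intro i _ _
        exact mul_nonneg (hν.nonneg _) (pow_nonneg hu _)
    _ = ν 1 * u := by simp
    _ ≤ 1 * u := mul_le_mul_of_nonneg_right hν.one hu
    _ = u := one_mul u

theorem mmat_charpoly_le {ν : R → ℝ} (hν : IsNrm ν) {t : ℝ} (ht : 1 ≤ t) {d : ℕ} (hd : 1 ≤ d)
    {H : Fin N → MvPolynomial (Fin N) R} (hH : ∀ i, (H i).totalDegree < d)
    (hw : ∀ i, wnorm ν t (H i) ≤ t ^ d) (h : MvPolynomial (Fin N) R) {u : ℝ} (hu : 0 ≤ u) :
    pnorm ν u (mmat hd hH h).charpoly ≤ (u + wnorm ν t h) ^ (d ^ N) := by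
  classical
  have ht0 : (0 : ℝ) < t := lt_of_lt_of_le zero_lt_one ht
  have hp := isNrm_pnorm hν hu
  set M := mmat hd hH h with hM
  have h1 := det_le_prod hp M.charmatrix (fun a => t ^ (∑ i, (a i : ℕ)))
    (fun a => pow_pos ht0 _)
  unfold Matrix.charpoly
  refine h1.trans ?_
  have hentry : ∀ a b : Fin N → Fin d, pnorm ν u (M.charmatrix a b) ≤
      (if a = b then u else 0) + ν (M a b) := by
    intro a b
    rw [Matrix.charmatrix_apply, sub_eq_add_neg]
    refine (hp.add_le _ _).trans ?_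
    rw [hp.neg]
    apply add_le_add _ (nb_pnorm_C hν hu _)
    by_cases hab : a = b
    · subst hab
      simpa using nb_pnorm_X hν hu
    · simp [hab, hp.zero]
  calc ∏ b, ∑ a, pnorm ν u (M.charmatrix a b) * t ^ (∑ i, (a i : ℕ)) / t ^ (∑ i, (b i : ℕ))
      ≤ ∏ _b : Fin N → Fin d, (u + wnorm ν t h) := by
        apply Finset.prod_le_prod
        · intro b _
          exact Finset.sum_nonneg fun a _ => by
            have := hp.nonneg (M.charmatrix a b)
            positivity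
        · intro b _
          calc ∑ a, pnorm ν u (M.charmatrix a b) * t ^ (∑ i, (a i : ℕ)) / t ^ (∑ i, (b i : ℕ))
              ≤ ∑ a, ((if a = b then u else 0) + ν (M a b)) * t ^ (∑ i, (a i : ℕ)) /
                  t ^ (∑ i, (b i : ℕ)) := by
                apply Finset.sum_le_sum
                intro a _
                have := hentry a b
                gcongr
            _ = ∑ a, (if a = b then u else 0) * t ^ (∑ i, (a i : ℕ)) / t ^ (∑ i, (b i : ℕ)) +
                ∑ a, ν (M a b) * t ^ (∑ i, (a i : ℕ)) / t ^ (∑ i, (b i : ℕ)) := by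
                rw [← Finset.sum_add_distrib]
                apply Finset.sum_congr rfl
                intro a _
                rw [add_mul, add_div]
            _ ≤ u + wnorm ν t h := by
                apply add_le_add _ (mmat_col_le hν ht hd hH hw h b)
                rw [Finset.sum_eq_single b]
                · rw [if_pos rfl]
                  have : t ^ (∑ i, (b i : ℕ)) ≠ 0 := (pow_pos ht0 _).ne'
                  rw [mul_div_cancel_right₀ _ this]
                · intro a _ hab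
                  rw [if_neg hab]
                  simp
                · intro hb
                  exact absurd (Finset.mem_univ b) hb
    _ = (u + wnorm ν t h) ^ (d ^ N) := by
        rw [Finset.prod_const, Finset.card_univ, nb_card]

theorem mmat_root_le {t : ℝ} (ht : 1 ≤ t) {d : ℕ} (hd : 1 ≤ d)
    {H : Fin N → MvPolynomial (Fin N) ℂ} (hH : ∀ i, (H i).totalDegree < d)
    (hw : ∀ i, wnorm (fun a : ℂ => ‖a‖) t (H i) ≤ t ^ d) (h : MvPolynomial (Fin N) ℂ) (α : ℂ)
    (hα : (mmat hd hH h).charpoly.eval α = 0) : ‖α‖ ≤ wnorm (fun a : ℂ => ‖a‖) t h := by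
  classical
  have ht0 : (0 : ℝ) < t := lt_of_lt_of_le zero_lt_one ht
  set M := mmat hd hH h with hM
  rw [Matrix.eval_charpoly] at hα
  obtain ⟨v, hv0, hv⟩ := Matrix.exists_vecMul_eq_zero_iff.2 hα
  -- the eigenvector identity
  have hev : ∀ b, α * v b = ∑ a, v a * M a b := by
    intro b
    have h1 := congrFun hv b
    rw [Matrix.vecMul_sub, Pi.sub_apply, Pi.zero_apply, sub_eq_zero] at h1
    rw [Matrix.scalar_apply, Matrix.vecMul_diagonal] at h1
    rw [mul_comm, h1]
    rfl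
  -- maximise the weighted modulus
  have hne : (Finset.univ : Finset (Fin N → Fin d)).Nonempty := by
    by_contra hcon
    rw [Finset.not_nonempty_iff_eq_empty, Finset.univ_eq_empty_iff] at hcon
    exact hv0 (Subsingleton.elim _ _)
  obtain ⟨b, -, hb⟩ := Finset.exists_max_image Finset.univ
    (fun a : Fin N → Fin d => ‖v a‖ / t ^ (∑ i, (a i : ℕ))) hne
  have hτ : ∀ a : Fin N → Fin d, (0 : ℝ) < t ^ (∑ i, (a i : ℕ)) := fun a => pow_pos ht0 _
  set c : ℝ := ‖v b‖ / t ^ (∑ i, (b i : ℕ)) with hc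
  have hcpos : 0 < c := by
    obtain ⟨a, ha⟩ := Function.ne_iff.1 hv0
    have h1 : 0 < ‖v a‖ / t ^ (∑ i, (a i : ℕ)) := div_pos (norm_pos_iff.2 ha) (hτ a)
    exact lt_of_lt_of_le h1 (hb a (Finset.mem_univ a))
  have hva : ∀ a : Fin N → Fin d, ‖v a‖ ≤ c * t ^ (∑ i, (a i : ℕ)) := by
    intro a
    have h1 := hb a (Finset.mem_univ a)
    rwa [div_le_iff₀ (hτ a)] at h1
  have hcol := mmat_col_le isNrm_complex ht hd hH hw h b
  have h2 : ‖α‖ * ‖v b‖ ≤ c * (wnorm (fun a : ℂ => ‖a‖) t h * t ^ (∑ i, (b i : ℕ))) := by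
    rw [← norm_mul, hev b]
    refine (norm_sum_le _ _).trans ?_
    rw [← Finset.sum_div, div_le_iff₀ (hτ b)] at hcol
    calc ∑ a, ‖v a * M a b‖ ≤ ∑ a, c * (‖M a b‖ * t ^ (∑ i, (a i : ℕ))) := by
          apply Finset.sum_le_sum
          intro a _
          rw [norm_mul]
          calc ‖v a‖ * ‖M a b‖ ≤ (c * t ^ (∑ i, (a i : ℕ))) * ‖M a b‖ := by
                gcongr
                exact hva a
            _ = _ := by ring
      _ = c * ∑ a, ‖M a b‖ * t ^ (∑ i, (a i : ℕ)) := by rw [Finset.mul_sum]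
      _ ≤ _ := mul_le_mul_of_nonneg_left hcol hcpos.le
  have hvb : ‖v b‖ = c * t ^ (∑ i, (b i : ℕ)) := by
    rw [hc, div_mul_cancel₀ _ (hτ b).ne']
  rw [hvb] at h2
  have h3 : ‖α‖ * (c * t ^ (∑ i, (b i : ℕ))) ≤
      wnorm (fun a : ℂ => ‖a‖) t h * (c * t ^ (∑ i, (b i : ℕ))) := by
    linarith
  exact le_of_mul_le_mul_right h3 (mul_pos hcpos (hτ b))

end Vale.Agent.P337
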