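import Mathlib
import Vale.Agent.Lib.P337.Alg.Mmat
import Vale.Agent.Lib.P337.Alg.Bezoutian

/-!
P337, algebra side: the trace formula.
-/

namespace Vale.Agent.P337

open MvPolynomial

variable {N : ℕ} {R : Type} [CommRing R]

/-- the residue functional on the quotient algebra -/
theorem exists_rhoBar {d : ℕ} (hd : 1 ≤ d) {H : Fin N → MvPolynomial (Fin N) R}
    (hH : ∀ i, (H i).totalDegree < d) :
    ∃ φ : QA d H →ₗ[R] R, ∀ h, φ (qmk d H h) = rhoL d H h := by
  set I := Ideal.span (Set.range (Fs d H)) with hI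
  let ψ : (MvPolynomial (Fin N) R ⧸ I.restrictScalars R) →ₗ[R] R :=
    (I.restrictScalars R).liftQ (rhoL d H) (by
      intro h hh
      exact rhoL_ideal hd hH hh)
  refine ⟨ψ ∘ₗ (Submodule.Quotient.restrictScalarsEquiv R I).symm.toLinearMap, fun h => ?_⟩
  rfl

theorem trace_smulRight_aux {A : Type} [AddCommGroup A] [Module R A] {ι : Type} [Fintype ι]
    [DecidableEq ι] (b : Module.Basis ι R A) (φ : A →ₗ[R] R) (v : A) :
    LinearMap.trace R A (φ.smulRight v) = φ v := by
  rw [LinearMap.trace_eq_matrix_trace R b, Matrix.trace]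
  simp only [Matrix.diag_apply, LinearMap.toMatrix_apply, LinearMap.smulRight_apply, map_smul,
    Finsupp.smul_apply, smul_eq_mul]
  conv_rhs => rw [← b.sum_repr v, map_sum]
  refine Finset.sum_congr rfl fun i _ => ?_
  rw [map_smul, smul_eq_mul, mul_comm]

/-- abstract version of the trace formula -/
theorem trace_aux {A : Type} [CommRing A] [Algebra R A] (π : MvPolynomial (Fin N) R →ₐ[R] A)
    (hπ : Function.Surjective π) {ι : Type} [Fintype ι] [DecidableEq ι] (b : Module.Basis ι R A)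
    (ρ : A →ₗ[R] R) (Δ : MvPolynomial (Fin N) A)
    (hexp : ∀ g, π g = ∑ m ∈ Δ.support, ρ (π (g * monomial m 1)) • coeff m Δ)
    (h : MvPolynomial (Fin N) R) :
    LinearMap.trace R A (LinearMap.mulLeft R (π h)) =
      ρ (π h * eval (fun i => π (X i)) Δ) := by
  have hlin : LinearMap.mulLeft R (π h) =
      ∑ m ∈ Δ.support, (ρ ∘ₗ LinearMap.mulLeft R (π (h * monomial m 1))).smulRight
        (coeff m Δ) := by
    ext1 v
    obtain ⟨g, rfl⟩ := hπ v
    rw [LinearMap.mulLeft_apply, ← map_mul, hexp, LinearMap.sum_apply]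
    refine Finset.sum_congr rfl fun m _ => ?_
    rw [LinearMap.smulRight_apply, LinearMap.comp_apply, LinearMap.mulLeft_apply, ← map_mul]
    congr 3
    ring
  rw [hlin, map_sum]
  have h5 : ∀ m, LinearMap.trace R A
      ((ρ ∘ₗ LinearMap.mulLeft R (π (h * monomial m 1))).smulRight (coeff m Δ)) =
      ρ (π (h * monomial m 1) * coeff m Δ) := by
    intro m
    rw [trace_smulRight_aux b]
    rfl
  simp only [h5]
  rw [← map_sum]
  congr 1
  rw [eval_eq, Finset.mul_sum]
  refine Finset.sum_congr rfl fun m _ => ?_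
  have h7 : π (monomial m 1) = ∏ i ∈ m.support, π (X i) ^ m i := by
    rw [monomial_eq, map_one, one_mul, Finsupp.prod, map_prod]
    simp only [map_pow]
  rw [map_mul, h7]
  ring

/-- abstract version of the expansion of classes -/
theorem expansion_aux {A : Type} [CommRing A] [Algebra R A] (π : MvPolynomial (Fin N) R →ₐ[R] A)
    {d : ℕ} (hd1 : 1 ≤ d) {H : Fin N → MvPolynomial (Fin N) R} (hH : ∀ i, (H i).totalDegree < d)
    (ρ : A →ₗ[R] R) (hρ : ∀ h, ρ (π h) = rhoL d H h) (Δ : MvPolynomial (Fin N) A)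
    (h1 : ∀ g : MvPolynomial (Fin N) R,
      rhoL d (fun i => map (algebraMap R A) (H i)) (map (algebraMap R A) g * Δ) = π g)
    (g : MvPolynomial (Fin N) R) :
    π g = ∑ m ∈ Δ.support, ρ (π (g * monomial m 1)) • coeff m Δ := by
  have h3 := h1 g
  rw [← h3]
  conv_lhs => rw [Δ.as_sum, Finset.mul_sum, map_sum]
  refine Finset.sum_congr rfl fun m _ => ?_
  have h4 : map (algebraMap R A) g * monomial m (coeff m Δ) =
      coeff m Δ • map (algebraMap R A) (g * monomial m 1) := by
    rw [map_mul, map_monomial, map_one, ← mul_smul_comm, smul_monomial, smul_eq_mul, mul_one]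
  rw [h4, map_smul, rhoL_map _ hd1 hH, smul_eq_mul, Algebra.smul_def, mul_comm, hρ]

theorem mmat_trace {d : ℕ} (hd1 : 1 ≤ d) (hd : 2 ≤ d) {H : Fin N → MvPolynomial (Fin N) R}
    (hH : ∀ i, (H i).totalDegree < d) (h : MvPolynomial (Fin N) R) :
    (mmat hd1 hH h).trace = rhoL d H (h * jac d H) := by
  obtain ⟨Δ, h1, h2⟩ := exists_bezoutian hd hH
  obtain ⟨ρ, hρ⟩ := exists_rhoBar hd1 hH
  have hexp := expansion_aux (qmk d H) hd1 hH ρ hρ Δ h1
  have htr : (mmat hd1 hH h).trace = LinearMap.trace R (QA d H) (LinearMap.mulLeft R (qmk d H h)) := by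
    rw [LinearMap.trace_eq_matrix_trace R (bas hd1 hH), mmat, Algebra.leftMulMatrix_apply]
    rfl
  rw [htr, trace_aux (qmk d H) (Ideal.Quotient.mkₐ_surjective R _) (bas hd1 hH) ρ Δ hexp, h2,
    ← map_mul, hρ]

end Vale.Agent.P337
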