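import Mathlib
import Vale.Agent.Lib.P337.Alg.Trace
import Vale.Agent.Lib.P337.Alg.Fourier

/-!
P337, algebra side: the trace formula modulo a prime.
-/

namespace Vale.Agent.P337

open MvPolynomial

variable {N : ℕ} {r : ℕ}

/-- degree bound for the products in the residue functional -/
theorem traceSum_degree {R : Type} [CommRing R] {d : ℕ} {H : Fin N → MvPolynomial (Fin N) R}
    (hH : ∀ i, (H i).totalDegree < d) {g : MvPolynomial (Fin N) R} {K : ℕ}
    (hg : g.totalDegree ≤ K) {k : Fin N → ℕ} (hk : ∀ i, k i ≤ K) :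
    (g * ∏ i, H i ^ k i).totalDegree ≤ K + N * K * (d - 1) := by
  refine (totalDegree_mul _ _).trans (add_le_add hg ?_)
  refine (totalDegree_finsetProd _ _).trans ?_
  calc ∑ i : Fin N, (H i ^ k i).totalDegree ≤ ∑ _i : Fin N, K * (d - 1) := by
        apply Finset.sum_le_sum
        intro i _
        refine (totalDegree_pow _ _).trans ?_
        have h1 : (H i).totalDegree ≤ d - 1 := by
          have := hH i
          omega
        exact Nat.mul_le_mul (hk i) h1
    _ = N * K * (d - 1) := by
        rw [Finset.sum_const, Finset.card_univ, Fintype.card_fin, smul_eq_mul, mul_assoc]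

/-- the trace formula modulo a prime -/
theorem mmat_trace_sum [Fact r.Prime] {d : ℕ} (hd1 : 1 ≤ d) (hd : 2 ≤ d)
    {H : Fin N → MvPolynomial (Fin N) (ZMod r)} (hH : ∀ i, (H i).totalDegree < d)
    (h : MvPolynomial (Fin N) (ZMod r)) (K : ℕ) (hK : (h * jac d H).totalDegree ≤ K)
    (hr : K + N * K * (d - 1) + d * (K + 1) < r - 1) :
    (mmat hd1 hH h).trace =
      (-1) ^ N * ∑ z ∈ Fintype.piFinset (fun _ : Fin N => Finset.Ico 1 r),
        eval (fun i => (z i : ZMod r)) h * (eval (fun i => (z i : ZMod r)) (jac d H) *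
          ∏ i, ∑ k ∈ Finset.range (K + 1), eval (fun i => (z i : ZMod r)) (H i) ^ k *
            ((z i : ZMod r)⁻¹) ^ (d * (k + 1) - 1)) := by
  rw [mmat_trace hd1 hd hH, rhoL_apply hd1 hH hK, rho]
  have h1 : ∀ k ∈ Fintype.piFinset (fun _ : Fin N => Finset.range (K + 1)),
      coeff (Finsupp.equivFunOnFinite.symm fun i => d * (k i + 1) - 1)
        (h * jac d H * ∏ i, H i ^ k i) =
      (-1) ^ N * ∑ z ∈ Fintype.piFinset (fun _ : Fin N => Finset.Ico 1 r),
        eval (fun i => (z i : ZMod r)) h * (eval (fun i => (z i : ZMod r)) (jac d H) *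
          ∏ i, (eval (fun i => (z i : ZMod r)) (H i) ^ k i *
            ((z i : ZMod r)⁻¹) ^ (d * (k i + 1) - 1))) := by
    intro k hk
    have hk' : ∀ i, k i ≤ K := by
      intro i
      have := Finset.mem_range.mp ((Fintype.mem_piFinset.mp hk) i)
      omega
    have hdeg := traceSum_degree hH hK hk'
    rw [coeff_eq_sum _ (fun i => d * (k i + 1) - 1) (by omega) (by
      intro i
      have h2 : d * (k i + 1) ≤ d * (K + 1) := Nat.mul_le_mul le_rfl (by have := hk' i; omega)
      omega)]
    congr 1
    apply Finset.sum_congr rfl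
    intro z _
    rw [map_mul, map_mul, map_prod, Finset.prod_mul_distrib]
    simp only [map_pow]
    ring
  rw [Finset.sum_congr rfl h1, ← Finset.mul_sum, Finset.sum_comm]
  congr 1
  apply Finset.sum_congr rfl
  intro z _
  rw [← Finset.mul_sum, ← Finset.mul_sum, Finset.prod_univ_sum]

end Vale.Agent.P337
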